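import Mathlib

/-! # P254 stage 3, block S2: the algebra of the assembly (helper93) -/

open Matrix

namespace Vale.Agent.P254.S2.Alg93

variable {n : ℕ}

theorem psd_mul_trace {A P : Matrix (Fin n) (Fin n) ℝ} (hA : A.PosSemidef) (hP : P.PosSemidef) :
    0 ≤ (A * P).trace := by
  obtain ⟨S, hS⟩ : ∃ S : Matrix (Fin n) (Fin n) ℝ, P = Sᴴ * S := by
    open scoped MatrixOrder in
    exact CStarAlgebra.nonneg_iff_eq_star_mul_self.1 hP.nonneg
  rw [hS, ← Matrix.mul_assoc, Matrix.trace_mul_comm, ← Matrix.mul_assoc]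
  exact (hA.mul_mul_conjTranspose_same S).trace_nonneg

/-- the matrix step: `V'' ≥ B`, completion of the square with `Y = diag y` -/
theorem trace_low {H t : Matrix (Fin n) (Fin n) ℝ} {b w y : Fin n → ℝ}
    (ht : t.PosSemidef) (hH : (H - Matrix.diagonal b).PosSemidef) (hb : ∀ i, 0 ≤ b i) :
    2 * (∑ i, ∑ j, b i * y i * (w i * w j) * t i j ^ 2) - ∑ i, b i * y i ^ 2 * w i ^ 2 * t i i
      ≤ (H * t * Matrix.diagonal w * t * Matrix.diagonal w * t).trace := by
  set W := Matrix.diagonal w with hW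
  set B := Matrix.diagonal b with hB
  set Y := Matrix.diagonal y with hY
  have hts : tᴴ = t := ht.isHermitian
  have hWs : Wᴴ = W := by rw [hW, diagonal_conjTranspose]; simp
  have hYs : Yᴴ = Y := by rw [hY, diagonal_conjTranspose]; simp
  have hBp : B.PosSemidef := Matrix.PosSemidef.diagonal hb
  have h1 : (t * W * t * W * t).PosSemidef := by
    have := ht.mul_mul_conjTranspose_same (t * W)
    rw [conjTranspose_mul, hts, hWs] at this
    simpa [Matrix.mul_assoc] using this
  have h2 : ((t - Y) * W * t * W * (t - Y)).PosSemidef := by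
    have := ht.mul_mul_conjTranspose_same ((t - Y) * W)
    rw [conjTranspose_mul, conjTranspose_sub, hts, hWs, hYs] at this
    simpa [Matrix.mul_assoc] using this
  have h3 := psd_mul_trace hH h1
  have h4 := psd_mul_trace hBp h2
  have e1 : ((H - B) * (t * W * t * W * t)).trace
      = (H * t * W * t * W * t).trace - (B * t * W * t * W * t).trace := by
    rw [Matrix.sub_mul, trace_sub]
    simp only [Matrix.mul_assoc]
  have e2 : (B * ((t - Y) * W * t * W * (t - Y))).trace
      = (B * t * W * t * W * t).trace - (B * t * W * t * W * Y).trace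
        - (B * Y * W * t * W * t).trace + (B * Y * W * t * W * Y).trace := by
    rw [← trace_sub, ← trace_sub, ← trace_add]
    congr 1
    noncomm_ring
  have tij : ∀ i j, t i j = t j i := fun i j => by
    have := congrFun (congrFun hts j) i
    simpa using this
  have e3 : (B * t * W * t * W * Y).trace = ∑ i, ∑ j, b i * y i * (w i * w j) * t i j ^ 2 := by
    simp only [Matrix.trace, Matrix.diag_apply, hB, hW, hY]
    refine Finset.sum_congr rfl fun i _ => ?_
    rw [Matrix.mul_diagonal, Matrix.mul_diagonal, Matrix.mul_apply, Finset.sum_mul, Finset.sum_mul]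
    refine Finset.sum_congr rfl fun j _ => ?_
    rw [Matrix.mul_diagonal, Matrix.diagonal_mul, tij j i]
    ring
  have e4 : (B * Y * W * t * W * t).trace = ∑ i, ∑ j, b i * y i * (w i * w j) * t i j ^ 2 := by
    simp only [Matrix.trace, Matrix.diag_apply, hB, hW, hY]
    refine Finset.sum_congr rfl fun i _ => ?_
    rw [Matrix.mul_apply]
    refine Finset.sum_congr rfl fun j _ => ?_
    rw [Matrix.mul_diagonal, Matrix.diagonal_mul_diagonal, Matrix.diagonal_mul_diagonal,
      Matrix.diagonal_mul, tij j i]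
    ring
  have e5 : (B * Y * W * t * W * Y).trace = ∑ i, b i * y i ^ 2 * w i ^ 2 * t i i := by
    simp only [Matrix.trace, Matrix.diag_apply, hB, hW, hY]
    refine Finset.sum_congr rfl fun i _ => ?_
    rw [Matrix.mul_diagonal, Matrix.mul_diagonal, Matrix.diagonal_mul_diagonal,
      Matrix.diagonal_mul_diagonal, Matrix.diagonal_mul]
    ring
  rw [e1] at h3
  rw [e2, e3, e4, e5] at h4
  linarith

theorem trace_WW {t : Matrix (Fin n) (Fin n) ℝ} {w : Fin n → ℝ} (hts : ∀ i j, t i j = t j i) :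
    (Matrix.diagonal w * t * Matrix.diagonal w * t).trace = ∑ i, ∑ j, w i * w j * t i j ^ 2 := by
  simp only [Matrix.trace, Matrix.diag_apply]
  refine Finset.sum_congr rfl fun i _ => ?_
  rw [Matrix.mul_apply]
  refine Finset.sum_congr rfl fun j _ => ?_
  rw [Matrix.mul_diagonal, Matrix.diagonal_mul, hts j i]
  ring

/-- scalar facts about `y(b)` -/
theorem yb_facts {b : ℝ} (hb : 0 < b) :
    b * ((Real.sqrt (1 + 8 * b) - 1) / (2 * b)) ^ 2 + (Real.sqrt (1 + 8 * b) - 1) / (2 * b) = 2 ∧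
      0 < (Real.sqrt (1 + 8 * b) - 1) / (2 * b) := by
  have hs : Real.sqrt (1 + 8 * b) ^ 2 = 1 + 8 * b := Real.sq_sqrt (by linarith)
  have h1 : 1 < Real.sqrt (1 + 8 * b) := by
    rw [Real.lt_sqrt (by norm_num)]
    linarith
  set s : ℝ := Real.sqrt (1 + 8 * b) with hs'
  clear_value s
  refine ⟨?_, by apply div_pos <;> linarith⟩
  have hb' := hb.ne'
  have e : b * ((s - 1) / (2 * b)) ^ 2 + (s - 1) / (2 * b) = (s ^ 2 - 1) / (4 * b) := by
    field_simp; ring
  rw [e, hs]
  field_simp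
  ring

/-- final algebra -/
theorem final {cc b y : Fin n → ℝ} {Vr S : Fin n → Fin n → ℝ} (hcc : ∀ i, 0 ≤ cc i)
    (hb : ∀ i, 0 < b i) (hy : ∀ i, 0 < y i) (hq : ∀ i, b i * y i ^ 2 + y i = 2)
    (hVs : ∀ i j, Vr i j = Vr j i) (hV0 : ∀ i j, 0 ≤ Vr i j)
    (hS : ∀ i j, S i j ≤ 4 * Vr i j)
    (hmain : ∀ w : Fin n → ℝ, (∀ i, 0 ≤ w i) →
      2 * ∑ i, ∑ j, w i * w j * Vr i j ≤
        (∑ i, ∑ j, w i * w j * (Vr i j + if i = j then 1 else 0))
          - (2 * (∑ i, ∑ j, b i * y i * (w i * w j) * (Vr i j + if i = j then 1 else 0))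
            - ∑ i, b i * y i ^ 2 * w i ^ 2)) :
    ∑ i, ∑ j, Real.sqrt (cc i * cc j) * S i j ≤ ∑ i, cc i * (4 * (y i - 1)) := by
  set β : Fin n → ℝ := fun i => 1 + 2 * (b i * y i) with hβ
  have hβ1 : ∀ i, 1 ≤ β i := fun i => by
    have := mul_pos (hb i) (hy i)
    simp only [hβ]; linarith
  have hβ0 : ∀ i, 0 < β i := fun i => lt_of_lt_of_le one_pos (hβ1 i)
  set w : Fin n → ℝ := fun i => Real.sqrt (cc i / β i) with hw
  have hw0 : ∀ i, 0 ≤ w i := fun i => Real.sqrt_nonneg _
  have hw2 : ∀ i, w i ^ 2 = cc i / β i := fun i => Real.sq_sqrt (div_nonneg (hcc i) (hβ0 i).le)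
  have hm := hmain w hw0
  -- rewrite `hmain`
  have d1 : ∀ a : Fin n → ℝ, ∑ i, ∑ j, a i * (w i * w j) * (Vr i j + if i = j then 1 else 0)
      = (∑ i, ∑ j, a i * (w i * w j) * Vr i j) + ∑ i, a i * w i ^ 2 := by
    intro a
    rw [← Finset.sum_add_distrib]
    refine Finset.sum_congr rfl fun i _ => ?_
    simp only [mul_add]
    rw [Finset.sum_add_distrib]
    congr 1
    simp only [mul_ite, mul_one, mul_zero, Finset.sum_ite_eq, Finset.mem_univ, if_true]
    ring
  have d2 := d1 (fun _ => 1)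
  simp only [one_mul] at d2
  have d3 := d1 (fun i => b i * y i)
  rw [d2, d3] at hm
  have k1 : ∑ i, ∑ j, β i * (w i * w j) * Vr i j ≤ ∑ i, w i ^ 2 * (1 - 2 * (b i * y i) + b i * y i ^ 2) := by
    have e1 : ∑ i, ∑ j, β i * (w i * w j) * Vr i j
        = (∑ i, ∑ j, w i * w j * Vr i j) + 2 * ∑ i, ∑ j, b i * y i * (w i * w j) * Vr i j := by
      rw [Finset.mul_sum, ← Finset.sum_add_distrib]
      refine Finset.sum_congr rfl fun i _ => ?_
      rw [Finset.mul_sum, ← Finset.sum_add_distrib]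
      refine Finset.sum_congr rfl fun j _ => ?_
      simp only [hβ]; ring
    have e2 : ∑ i, w i ^ 2 * (1 - 2 * (b i * y i) + b i * y i ^ 2)
        = (∑ i, w i ^ 2) - 2 * (∑ i, b i * y i * w i ^ 2) + ∑ i, b i * y i ^ 2 * w i ^ 2 := by
      rw [Finset.mul_sum, ← Finset.sum_sub_distrib, ← Finset.sum_add_distrib]
      refine Finset.sum_congr rfl fun i _ => ?_
      ring
    rw [e1, e2]
    linarith
  have k2 : ∀ i, w i ^ 2 * (1 - 2 * (b i * y i) + b i * y i ^ 2) = cc i * (y i - 1) := by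
    intro i
    rw [hw2]
    have h1 := hq i
    have h2 := (hβ0 i).ne'
    field_simp
    simp only [hβ]
    have h3 : b i * y i ^ 2 = 2 - y i := by linarith
    linear_combination -cc i * h3
  have k3 : ∑ i, ∑ j, Real.sqrt (cc i * cc j) * Vr i j ≤ ∑ i, ∑ j, β i * (w i * w j) * Vr i j := by
    have e1 : ∑ i, ∑ j, β i * (w i * w j) * Vr i j = ∑ i, ∑ j, β j * (w i * w j) * Vr i j := by
      rw [Finset.sum_comm]
      refine Finset.sum_congr rfl fun i _ => Finset.sum_congr rfl fun j _ => ?_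
      rw [hVs j i]; ring
    have e2 : ∑ i, ∑ j, β i * (w i * w j) * Vr i j
        = ∑ i, ∑ j, ((β i + β j) / 2) * (w i * w j) * Vr i j := by
      have : ∑ i, ∑ j, ((β i + β j) / 2) * (w i * w j) * Vr i j
          = ((∑ i, ∑ j, β i * (w i * w j) * Vr i j) + ∑ i, ∑ j, β j * (w i * w j) * Vr i j) / 2 := by
        rw [← Finset.sum_add_distrib, Finset.sum_div]
        refine Finset.sum_congr rfl fun i _ => ?_
        rw [← Finset.sum_add_distrib, Finset.sum_div]
        refine Finset.sum_congr rfl fun j _ => ?_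
        ring
      rw [this, ← e1]; ring
    rw [e2]
    refine Finset.sum_le_sum fun i _ => Finset.sum_le_sum fun j _ => ?_
    refine mul_le_mul_of_nonneg_right ?_ (hV0 i j)
    refine Real.sqrt_le_iff.2 ⟨?_, ?_⟩
    · have := hβ0 i; have := hβ0 j; have := hw0 i; have := hw0 j
      positivity
    · have e3 : ((β i + β j) / 2 * (w i * w j)) ^ 2 = ((β i + β j) / 2) ^ 2 * (w i ^ 2 * w j ^ 2) := by
        ring
      rw [e3, hw2, hw2]
      have h1 : β i * β j ≤ ((β i + β j) / 2) ^ 2 := by nlinarith [sq_nonneg (β i - β j)]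
      have h2 : cc i * cc j = (β i * β j) * (cc i / β i * (cc j / β j)) := by
        have := (hβ0 i).ne'; have := (hβ0 j).ne'
        field_simp
      rw [h2]
      refine mul_le_mul_of_nonneg_right h1 ?_
      exact mul_nonneg (div_nonneg (hcc i) (hβ0 i).le) (div_nonneg (hcc j) (hβ0 j).le)
  have k4 : ∑ i, ∑ j, Real.sqrt (cc i * cc j) * S i j
      ≤ 4 * ∑ i, ∑ j, Real.sqrt (cc i * cc j) * Vr i j := by
    rw [Finset.mul_sum]
    refine Finset.sum_le_sum fun i _ => ?_
    rw [Finset.mul_sum]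
    refine Finset.sum_le_sum fun j _ => ?_
    have := mul_le_mul_of_nonneg_left (hS i j) (Real.sqrt_nonneg (cc i * cc j))
    linarith
  have k5 : ∑ i, cc i * (4 * (y i - 1)) = 4 * ∑ i, w i ^ 2 * (1 - 2 * (b i * y i) + b i * y i ^ 2) := by
    rw [Finset.mul_sum]
    refine Finset.sum_congr rfl fun i _ => ?_
    rw [k2]; ring
  rw [k5]
  linarith

end Vale.Agent.P254.S2.Alg93
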