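import Vale.Agent.P254.S2.Core
import Vale.Agent.P227.M.Bas

/-! # P227/M/ID: `τ` is continuous, bounded, Lipschitz; `StmtStein`, `StmtIBP` (helper294) -/

open MeasureTheory
open scoped Topology

namespace Vale.Agent.P254.S2

open Vale.Agent.P227.M Vale.Agent.P254.MC

variable {n : ℕ} {ψ V : E n → ℝ} {c C M : ℝ}

lemma norm_Top_le (h : MMc ψ V c C M) (x v : E n) : ‖Top ψ x v‖ ≤ c⁻¹ * ‖v‖ := by
  have h1 := (gmap h).le_norm_A_apply x (Top ψ x v)
  rw [Aop_Top h] at h1
  rw [inv_mul_eq_div, le_div_iff₀ h.c_pos, mul_comm]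
  exact h1

lemma abs_tau_le (h : MMc ψ V c C M) (x : E n) (i j : Fin n) : |tau ψ x i j| ≤ c⁻¹ := by
  have h1 := norm_Top_le h x (ei j)
  rw [norm_ei, mul_one] at h1
  rw [← Top_ei]
  exact (abs_coord_le _ _).trans h1

lemma continuous_hessM (h : MMc ψ V c C M) : Continuous (fun x => hess ψ x) :=
  continuous_matrix fun i j => continuous_hess h.C2 i j

lemma continuous_tau (h : MMc ψ V c C M) (i j : Fin n) : Continuous (fun x => tau ψ x i j) := by
  have h1 : Continuous (fun x => (hess ψ x).det⁻¹) :=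
    (continuous_hessM h).matrix_det.inv₀ fun x => (det_hess_pos h x).ne'
  have h2 : Continuous (fun x => (hess ψ x).adjugate) := (continuous_hessM h).matrix_adjugate
  have e : (fun x => tau ψ x i j) = fun x => (hess ψ x).det⁻¹ * (hess ψ x).adjugate i j := by
    funext x
    unfold tau
    rw [Matrix.inv_def, Ring.inverse_eq_inv']
    rfl
  rw [e]
  exact h1.mul (h2.matrix_elem i j)

lemma gr_tau (h : MMc ψ V c C M) (i j : Fin n) : Gr (fun x => tau ψ x i j) :=
  Gr.of_bound (continuous_tau h i j) (fun x => abs_tau_le h x i j)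

lemma tau_sub (h : MMc ψ V c C M) (x y : E n) :
    tau ψ x - tau ψ y = tau ψ x * (hess ψ y - hess ψ x) * tau ψ y := by
  rw [mul_sub, sub_mul, tau_mul_hess h x, mul_assoc, hess_mul_tau h y]
  simp

/-- `τ` is Lipschitz -/
lemma tau_lip (h : MMc ψ V c C M) (i j : Fin n) (x y : E n) :
    |tau ψ x i j - tau ψ y i j| ≤ (n * (n * (c⁻¹ * M * c⁻¹))) * ‖x - y‖ := by
  have e : tau ψ x i j - tau ψ y i j
      = ∑ k, ∑ l, tau ψ x i k * (hess ψ y k l - hess ψ x k l) * tau ψ y l j := by
    have := congrFun (congrFun (tau_sub h x y) i) j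
    rw [Matrix.sub_apply] at this
    rw [this, Matrix.mul_apply]
    simp only [Matrix.mul_apply, Matrix.sub_apply, Finset.sum_mul]
    rw [Finset.sum_comm]
  rw [e]
  have hc : 0 ≤ c⁻¹ := inv_nonneg.2 h.c_pos.le
  have hM : ∀ k l, |hess ψ y k l - hess ψ x k l| ≤ M * ‖x - y‖ := fun k l => by
    have := h.lip k l y x
    rwa [norm_sub_rev] at this
  calc |∑ k, ∑ l, tau ψ x i k * (hess ψ y k l - hess ψ x k l) * tau ψ y l j|
      ≤ ∑ k : Fin n, ∑ l : Fin n, c⁻¹ * (M * ‖x - y‖) * c⁻¹ := by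
        refine (Finset.abs_sum_le_sum_abs _ _).trans (Finset.sum_le_sum fun k _ => ?_)
        refine (Finset.abs_sum_le_sum_abs _ _).trans (Finset.sum_le_sum fun l _ => ?_)
        rw [abs_mul, abs_mul]
        refine mul_le_mul ?_ (abs_tau_le h y l j) (abs_nonneg _) ?_
        · exact mul_le_mul (abs_tau_le h x i k) (hM k l) (abs_nonneg _) hc
        · exact mul_nonneg hc ((abs_nonneg _).trans (hM k l))
    _ = (n * (n * (c⁻¹ * M * c⁻¹))) * ‖x - y‖ := by
        simp only [Finset.sum_const, Finset.card_univ, Fintype.card_fin, nsmul_eq_mul]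
        ring

/-- CORE for `C¹` functions of polynomial growth -/
theorem core_gr {c₁ C₁ : ℝ} (hV : Reg V c₁ C₁) (h : MMc ψ V c C M) (a : Fin n) (G : E n → ℝ)
    (hG : Differentiable ℝ G) (hG0 : Gr G) (hG1 : ∀ b, Gr (pd b G)) :
    ∫ x, (∑ b, tau ψ x a b * pd b G x) * Real.exp (-(V x))
      = ∫ x, (x a * G x) * Real.exp (-(V x)) := by
  refine core_c1 h a G hG ?_ ?_ ?_
  · exact hV.integrable_gr (Gr.sum _ fun b _ => (gr_tau h a b).mul (hG1 b))
  · exact hV.integrable_gr ((Gr.coord a).mul hG0)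
  · exact hV.integrable_gr hG0

/-- Stein : `E tr (D²W τ) = E ⟨∇W, x⟩` for smooth `W` with bounded second derivatives -/
theorem stein {n : ℕ} {ψ V : E n → ℝ} {c C M c₁ C₁ : ℝ} (hV : Reg V c₁ C₁) (h : MMc ψ V c C M)
    (W : E n → ℝ) (hW : Piece W) :
    Ex V (fun x => (hess W x * tau ψ x).trace) = Ex V (fun x => ∑ i, x i * pd i W x) := by
  unfold Ex
  congr 1
  have hW2 : ContDiff ℝ 2 W := hW.C2
  have hcore : ∀ a, ∫ x, (∑ b, tau ψ x a b * pd b (pd a W) x) * Real.exp (-(V x))
      = ∫ x, (x a * pd a W x) * Real.exp (-(V x)) := by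
    intro a
    refine core_gr hV h a (pd a W) (differentiable_pd hW2 a) (hW.gr_pd a) fun b => ?_
    exact hW.gr_hess b a
  have e1 : ∀ x, (hess W x * tau ψ x).trace * Real.exp (-(V x))
      = ∑ a, (∑ b, tau ψ x a b * pd b (pd a W) x) * Real.exp (-(V x)) := by
    intro x
    rw [← Finset.sum_mul]
    congr 1
    rw [Matrix.trace]
    simp only [Matrix.diag_apply, Matrix.mul_apply]
    rw [Finset.sum_comm]
    refine Finset.sum_congr rfl fun a _ => Finset.sum_congr rfl fun b _ => ?_
    rw [mul_comm]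
    rfl
  have e2 : ∀ x, (∑ i, x i * pd i W x) * Real.exp (-(V x))
      = ∑ a, (x a * pd a W x) * Real.exp (-(V x)) := by
    intro x
    rw [← Finset.sum_mul]
  simp only [e1, e2]
  rw [integral_finsetSum, integral_finsetSum]
  · exact Finset.sum_congr rfl fun a _ => hcore a
  · intro a _
    exact hV.integrable_gr ((Gr.coord a).mul (hW.gr_pd a))
  · intro a _
    exact hV.integrable_gr (Gr.sum _ fun b _ => (gr_tau h a b).mul (hW.gr_hess b a))

lemma pd_compact {f : E n → ℝ} (hf : HasCompactSupport f) (i : Fin n) :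
    HasCompactSupport (pd i f) := by
  unfold pd
  exact (hf.fderiv ℝ).comp_left (g := fun L : E n →L[ℝ] ℝ => L (ei i)) (by simp)

lemma test_pd {f : E n → ℝ} (hf : Test f) (i : Fin n) : Test (pd i f) :=
  ⟨contDiff_pd_top hf.1 i, pd_compact hf.2 i⟩

lemma tGr {f : E n → ℝ} (hf : Test f) : Gr f := Gr.of_test hf.1.continuous hf.2

lemma tDiff {f : E n → ℝ} (hf : Test f) : Differentiable ℝ f :=
  hf.1.differentiable (by norm_num)

/-- integration by parts : `E (-L u) f = E ⟨∇f, s⟩`, `f` smooth -/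
theorem ibp {n : ℕ} {ψ V : E n → ℝ} {c C M c₁ C₁ : ℝ} (hV : Reg V c₁ C₁) (h : MMc ψ V c C M)
    (u f : E n → ℝ) (hu : Test u) (hf : ContDiff ℝ (⊤ : ℕ∞) f) :
    Ex V (fun x => -(Lop ψ u x) * f x) = Ex V (fun x => ∑ b, pd b f x * fld ψ u b x) := by
  unfold Ex
  congr 1
  have hfd : Differentiable ℝ f := hf.differentiable (by norm_num)
  -- the test function `f ∂_a u`
  have hT : ∀ a, Test (fun x => f x * pd a u x) := fun a =>
    ⟨hf.mul (test_pd hu a).1, (test_pd hu a).2.mul_left⟩
  have hcore : ∀ a, ∫ x, (∑ b, tau ψ x a b * pd b (fun z => f z * pd a u z) x) * Real.exp (-(V x))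
      = ∫ x, (x a * (f x * pd a u x)) * Real.exp (-(V x)) := by
    intro a
    refine core_gr hV h a _ (tDiff (hT a)) (tGr (hT a)) fun b => tGr (test_pd (hT a) b)
  have hi1 : ∀ a, Integrable (fun x =>
      (∑ b, tau ψ x a b * pd b (fun z => f z * pd a u z) x) * Real.exp (-(V x))) := fun a =>
    hV.integrable_gr (Gr.sum _ fun b _ => (gr_tau h a b).mul (tGr (test_pd (hT a) b)))
  have hi2 : ∀ a, Integrable (fun x => (x a * (f x * pd a u x)) * Real.exp (-(V x))) := fun a =>
    hV.integrable_gr ((Gr.coord a).mul (tGr (hT a)))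
  have hfu : ∀ a b, Test (fun x => pd b f x * pd a u x) := fun a b =>
    ⟨(contDiff_pd_top hf b).mul (test_pd hu a).1, (test_pd hu a).2.mul_left⟩
  have hi3 : Integrable (fun x => (∑ b, pd b f x * fld ψ u b x) * Real.exp (-(V x))) := by
    have : (fun x => (∑ b, pd b f x * fld ψ u b x)) =
        fun x => ∑ b, ∑ a, tau ψ x b a * (pd b f x * pd a u x) := by
      funext x
      refine Finset.sum_congr rfl fun b _ => ?_
      unfold fld
      rw [Finset.mul_sum]
      exact Finset.sum_congr rfl fun a _ => by ring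
    have h5 : Gr (fun x => ∑ b, pd b f x * fld ψ u b x) := by
      rw [this]
      exact Gr.sum _ fun b _ => Gr.sum _ fun a _ => (gr_tau h b a).mul (tGr (hfu a b))
    exact hV.integrable_gr h5
  have key : ∀ x, (-(Lop ψ u x) * f x) * Real.exp (-(V x))
      = (∑ b, pd b f x * fld ψ u b x) * Real.exp (-(V x))
        - ((∑ a, (∑ b, tau ψ x a b * pd b (fun z => f z * pd a u z) x) * Real.exp (-(V x)))
          - ∑ a, (x a * (f x * pd a u x)) * Real.exp (-(V x))) := by
    intro x
    have e1 : ∀ a b, pd b (fun z => f z * pd a u z) x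
        = f x * hess u x b a + pd b f x * pd a u x := fun a b => by
      rw [S2.pd_mul b (hfd x) (tDiff (test_pd hu a) x)]
      rfl
    simp only [e1, ← Finset.sum_mul]
    rw [← sub_mul, ← sub_mul]
    congr 1
    unfold Lop fld
    simp only [mul_add, Finset.sum_add_distrib]
    have e2 : ∑ a, ∑ b, tau ψ x a b * (f x * hess u x b a)
        = f x * ∑ i, ∑ j, tau ψ x i j * hess u x i j := by
      rw [Finset.mul_sum]
      refine Finset.sum_congr rfl fun a _ => ?_
      rw [Finset.mul_sum]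
      refine Finset.sum_congr rfl fun b _ => ?_
      rw [hess_symm (hu.1.of_le (by norm_cast)) x b a]
      ring
    have e3 : ∑ a, ∑ b, tau ψ x a b * (pd b f x * pd a u x)
        = ∑ b, pd b f x * ∑ a, tau ψ x b a * pd a u x := by
      rw [Finset.sum_comm]
      refine Finset.sum_congr rfl fun b _ => ?_
      rw [Finset.mul_sum]
      refine Finset.sum_congr rfl fun a _ => ?_
      rw [tau_symm h x a b]
      ring
    have e4 : ∑ a, x a * (f x * pd a u x) = f x * ∑ i, x i * pd i u x := by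
      rw [Finset.mul_sum]
      exact Finset.sum_congr rfl fun a _ => by ring
    rw [e2, e3, e4]
    ring
  have hs1 : Integrable (fun x => ∑ a,
      (∑ b, tau ψ x a b * pd b (fun z => f z * pd a u z) x) * Real.exp (-(V x))) :=
    integrable_finsetSum _ fun a _ => hi1 a
  have hs2 : Integrable (fun x => ∑ a, (x a * (f x * pd a u x)) * Real.exp (-(V x))) :=
    integrable_finsetSum _ fun a _ => hi2 a
  have hz : ∫ x, ((∑ a, (∑ b, tau ψ x a b * pd b (fun z => f z * pd a u z) x) * Real.exp (-(V x)))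
      - ∑ a, (x a * (f x * pd a u x)) * Real.exp (-(V x))) = 0 := by
    rw [integral_sub hs1 hs2, integral_finsetSum _ fun a _ => hi1 a,
      integral_finsetSum _ fun a _ => hi2 a, Finset.sum_congr rfl fun a _ => hcore a, sub_self]
  have hs3 : Integrable (fun x =>
      ((∑ a, (∑ b, tau ψ x a b * pd b (fun z => f z * pd a u z) x) * Real.exp (-(V x)))
      - ∑ a, (x a * (f x * pd a u x)) * Real.exp (-(V x)))) := hs1.sub hs2
  simp only [key]
  rw [integral_sub hi3 hs3, hz, sub_zero]

end Vale.Agent.P254.S2
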