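import Vale.Agent.P227.M.LIN.Esa929I
import Vale.Agent.P227.M.LIN.Iface
import Vale.Agent.P254.S2.BasMM
import Vale.Agent.P254.S2.Stein

/-! essential self-adjointness for `Reg` potentials and `MMc` (helper929), copy of `LIN.EsaStmt929`. -/

open MeasureTheory Set Filter Topology Metric
open scoped ContDiff Convolution ENNReal NNReal Pointwise

noncomputable section
open Vale.Agent.P227.M Vale.Agent.P227.M.Esa929

namespace Vale.Agent.P254.S2.Esa929c

variable {n : ℕ}

theorem pd_eq (i : Fin n) (F : EE n → ℝ) (x : EE n) : Esa929.pd i F x = Vale.Agent.P227.M.pd i F x := rfl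


theorem dat_of {ψ V : E n → ℝ} {c C M c1 C1 : ℝ} (hV : Reg V c1 C1) (h : MC.MMc ψ V c C M) :
    ∃ c' : ℝ, Dat (n := n) (fun x => Real.exp (-V x)) (fun x i j => Real.exp (-V x) * tau ψ x i j)
      (fun x j => -(Real.exp (-V x) * x j)) c' c⁻¹ := by
  have hVc : Continuous V := hV.smooth.continuous
  have hρc : Continuous (fun x => Real.exp (-V x)) := Real.continuous_exp.comp hVc.neg
  have hρd : ContDiff ℝ 1 (fun x => Real.exp (-V x)) :=
    Real.contDiff_exp.comp ((hV.smooth.of_le (by norm_cast)).neg)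
  have hqf : ∀ x (v : Fin n → ℝ), ∑ i, ∑ j, Real.exp (-V x) * tau ψ x i j * v i * v j =
      Real.exp (-V x) * qf (tau ψ x) (WithLp.toLp 2 v) := by
    intro x v
    rw [qf, Finset.mul_sum]
    apply Finset.sum_congr rfl; intro i _
    rw [Finset.mul_sum]
    apply Finset.sum_congr rfl; intro j _
    simp only []
    ring
  have hns : ∀ v : Fin n → ℝ, ∑ i, v i ^ 2 = ‖(WithLp.toLp 2 v : E n)‖ ^ 2 := by
    intro v; rw [norm_sq_eq_sum]
  have hlowex : ∃ c' : ℝ, 0 < c' ∧ ∀ x (v : E n), c' * ‖v‖ ^ 2 ≤ qf (tau ψ x) v := by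
    rcases lt_or_ge 0 C with hC | hC
    · exact ⟨C⁻¹, inv_pos.2 hC, fun x v => h.le_qf_tau x v⟩
    · refine ⟨1, one_pos, fun x v => ?_⟩
      have h1 := h.lower x v
      have h2 := h.upper x v
      have h3 : C * ‖v‖ ^ 2 ≤ 0 := mul_nonpos_of_nonpos_of_nonneg hC (sq_nonneg _)
      have h4 : c * ‖v‖ ^ 2 ≤ 0 := by linarith
      have h5 : ‖v‖ ^ 2 ≤ 0 := by
        by_contra hne
        exact absurd h4 (not_le.2 (mul_pos h.c_pos (not_le.1 hne)))
      have h6 := h.qf_tau_nonneg x v
      linarith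
  obtain ⟨c', hc', hlow⟩ := hlowex
  refine ⟨c', ⟨hρc, fun x => Real.exp_pos _, ?_, ?_, ?_, ?_, hc', ?_, ?_, ?_⟩⟩
  · intro x i j; rw [h.tau_symm x i j]
  · intro i j; exact hρc.mul (h.continuous_tau i j)
  · intro R
    obtain ⟨Bρ, hBρ⟩ := (isCompact_closedBall (0 : E n) R).exists_bound_of_continuousOn hρc.continuousOn
    obtain ⟨Lρ, hLρ⟩ := (isCompact_closedBall (0 : E n) R).exists_bound_of_continuousOn
      (hρd.continuous_fderiv (by simp)).continuousOn
    refine ⟨max Bρ 0 * |(n : ℝ) ^ 2 * M * (c⁻¹) ^ 2| + c⁻¹ * max Lρ 0, ?_, ?_⟩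
    · have := inv_pos.2 h.c_pos
      positivity
    · intro i j x hx y hy
      have h1 : |Real.exp (-V x) - Real.exp (-V y)| ≤ max Lρ 0 * ‖x - y‖ := by
        have := (convex_closedBall (0 : E n) R).norm_image_sub_le_of_norm_fderiv_le
          (f := fun x => Real.exp (-V x)) (C := max Lρ 0) (𝕜 := ℝ)
          (fun z _ => (hρd.differentiable (by simp)) z)
          (fun z hz => (hLρ z hz).trans (le_max_left _ _)) hy hx
        simpa using this
      have h2 := h.tau_lip i j x y
      have h3 := h.abs_tau_le y i j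
      have h4 : |Real.exp (-V x)| ≤ max Bρ 0 := (hBρ x hx).trans (le_max_left _ _)
      have e : Real.exp (-V x) * tau ψ x i j - Real.exp (-V y) * tau ψ y i j =
          Real.exp (-V x) * (tau ψ x i j - tau ψ y i j) + tau ψ y i j * (Real.exp (-V x) - Real.exp (-V y)) := by
        ring
      rw [e]
      refine (abs_add_le _ _).trans ?_
      rw [abs_mul, abs_mul, add_mul]
      apply add_le_add
      · calc |Real.exp (-V x)| * |tau ψ x i j - tau ψ y i j|
            ≤ max Bρ 0 * (|(n : ℝ) ^ 2 * M * (c⁻¹) ^ 2| * ‖x - y‖) := by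
              gcongr
              exact h2.trans (mul_le_mul_of_nonneg_right (le_abs_self _) (norm_nonneg _))
          _ = _ := by ring
      · calc |tau ψ y i j| * |Real.exp (-V x) - Real.exp (-V y)| ≤ c⁻¹ * (max Lρ 0 * ‖x - y‖) := by
              have := inv_pos.2 h.c_pos
              gcongr
          _ = _ := by ring
  · intro j
    have h1 : Continuous (fun x : E n => x j) := by fun_prop
    exact (hρc.mul h1).neg
  · intro x v
    rw [hqf, hns]
    have := mul_le_mul_of_nonneg_left (hlow x (WithLp.toLp 2 v)) (Real.exp_pos (-V x)).le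
    linarith
  · intro x v
    rw [hqf, hns]
    have := mul_le_mul_of_nonneg_left (h.qf_tau_le x (WithLp.toLp 2 v)) (Real.exp_pos (-V x)).le
    linarith
  · intro j F hF
    have hFt : Test F := hF
    have key := S2.core_gr hV h j F hFt.diff hFt.gr (fun b => hFt.gr_pd b)
    have e1 : (fun x => ∑ i, Real.exp (-V x) * tau ψ x i j * Esa929.pd i F x) =
        fun x => (∑ b, tau ψ x j b * Vale.Agent.P227.M.pd b F x) * Real.exp (-(V x)) := by
      funext x
      rw [Finset.sum_mul]
      apply Finset.sum_congr rfl; intro i _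
      rw [h.tau_symm x i j, pd_eq]; ring
    rw [e1, key, ← integral_neg]
    congr 1; funext x; ring

theorem esac (n : ℕ) (ψ V : E n → ℝ) (c C M c1 C1 : ℝ) (hV : Reg V c1 C1) (h : MC.MMc ψ V c C M)
    (g : E n → ℝ) (hg : MemLp g 2 (LIN.mu V))
    (heq : ∀ f : E n → ℝ, Test f → ∫ x, g x * (f x - Lop ψ f x) * Real.exp (-V x) = 0) :
    g =ᵐ[volume] 0 := by
  obtain ⟨c', D⟩ := dat_of hV h
  have hVc : Continuous V := hV.smooth.continuous
  have hρm : Measurable (fun x => ENNReal.ofReal (Real.exp (-V x))) :=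
    (Real.continuous_exp.comp hVc.neg).measurable.ennreal_ofReal
  have hac : (volume : Measure (E n)) ≪ LIN.mu V := by
    unfold LIN.mu
    refine withDensity_absolutelyContinuous' hρm.aemeasurable ?_
    exact Eventually.of_forall fun x => by simp [Real.exp_pos]
  have hm : AEStronglyMeasurable g volume := hg.1.mono_ac hac
  have hint0 : Integrable (fun x => g x ^ 2) (LIN.mu V) := (memLp_two_iff_integrable_sq hg.1).1 hg
  have hint : Integrable (fun x => Real.exp (-V x) * (g x * g x)) volume := by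
    unfold LIN.mu at hint0
    rw [integrable_withDensity_iff_integrable_smul' hρm
      (Eventually.of_forall fun x => ENNReal.ofReal_lt_top)] at hint0
    refine hint0.congr (Eventually.of_forall fun x => ?_)
    simp only [smul_eq_mul]
    rw [ENNReal.toReal_ofReal (Real.exp_pos _).le]; ring
  refine esa D hm hint ?_
  intro F hF
  have := heq F hF
  rw [← this]
  congr 1; funext x
  have e1 : ∑ i, ∑ j, Real.exp (-V x) * tau ψ x i j * Esa929.pd i (Esa929.pd j F) x =
      Real.exp (-V x) * ∑ i, ∑ j, tau ψ x i j * hess F x i j := by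
    rw [Finset.mul_sum]
    apply Finset.sum_congr rfl; intro i _
    rw [Finset.mul_sum]
    apply Finset.sum_congr rfl; intro j _
    rw [mul_assoc]; rfl
  have e2 : ∑ j, -(Real.exp (-V x) * x j) * Esa929.pd j F x = -(Real.exp (-V x) * ∑ j, x j * Vale.Agent.P227.M.pd j F x) := by
    rw [Finset.mul_sum, ← Finset.sum_neg_distrib]
    apply Finset.sum_congr rfl; intro j _
    rw [pd_eq]; ring
  rw [e1, e2, Lop]
  ring

end Vale.Agent.P254.S2.Esa929c
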