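import Vale.Agent.P254.S2.Hyp365
import Vale.Agent.P254.S2.ESAc

/-! # `StmtBL`: the dual Brascamp-Lieb / gap inequality of stage 3, block S2 -/

namespace Vale.Agent.P254.S2.BL365

theorem stmtBL : StmtBL :=
  S2.stmtBL_of_esa (fun n ψ V c C M c1 C1 hV h g hg heq =>
    Esa929c.esac n ψ V c C M c1 C1 hV h g hg heq)

end Vale.Agent.P254.S2.BL365
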