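import Vale.Agent.P254.S2.Gap467
import Vale.Agent.P254.S2.BasMM

/-! # P254/S2/GapFin467: `StmtBL` from integration by parts, `ESA` and Bochner for `Reg` + `MMc` (helper467). -/

open MeasureTheory Filter
open scoped Topology

namespace Vale.Agent.P254.S2.G467

open Vale.Agent.P227.M Vale.Agent.P227.M.LIN Vale.Agent.P227.M.LIN.T592

variable {n : ℕ} {ψ V : E n → ℝ} {c C M c1 C1 : ℝ}

theorem tauF_of (h : MC.MMc ψ V c C M) : ∃ a K, TauF ψ a K := by
  have hc := h.c_pos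
  refine ⟨(max C 1)⁻¹, c⁻¹ + |(n : ℝ) ^ 2 * M * (c⁻¹) ^ 2|, ?_⟩
  refine ⟨by positivity, fun x => h.tau_posSemidef x, fun x i j => h.tau_symm x i j,
    fun x g => ?_, fun x i j => ?_, fun x y i j => ?_⟩
  · have h1 := h.le_qf_tau x (WithLp.toLp 2 g : E n)
    have h2 : qf (tau ψ x) (WithLp.toLp 2 g) = ∑ i, ∑ j, tau ψ x i j * g i * g j := rfl
    rw [h2, norm_sq_eq_sum] at h1
    refine le_trans ?_ h1
    by_cases hg : ∑ i, g i ^ 2 = 0
    · rw [hg, mul_zero, mul_zero]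
    · have hg0 : 0 < ∑ i, g i ^ 2 := lt_of_le_of_ne (Finset.sum_nonneg fun _ _ => sq_nonneg _) (Ne.symm hg)
      have hC : 0 < C := by
        have h4 := (h.lower x (WithLp.toLp 2 g)).trans (h.upper x (WithLp.toLp 2 g))
        rw [norm_sq_eq_sum] at h4
        have h5 : c ≤ C := le_of_mul_le_mul_right h4 hg0
        linarith
      refine mul_le_mul_of_nonneg_right ?_ hg0.le
      exact inv_anti₀ hC (le_max_left _ _)
  · exact (h.abs_tau_le x i j).trans (le_add_of_nonneg_right (abs_nonneg _))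
  · refine (h.tau_lip i j x y).trans (mul_le_mul_of_nonneg_right ?_ (norm_nonneg _))
    have h1 := le_abs_self ((n : ℝ) ^ 2 * M * (c⁻¹) ^ 2)
    have h2 : 0 ≤ c⁻¹ := inv_nonneg.2 hc.le
    linarith

/-- integration by parts, bounded Lipschitz version -/
def StmtIbpc : Prop := ∀ (n : ℕ) (ψ V : E n → ℝ) (c C M c1 C1 : ℝ), Reg V c1 C1 → MC.MMc ψ V c C M →
  ∀ f g : E n → ℝ, Test f → AE.BL g →
    ∫ x, (g x * Lop ψ f x + ∑ a, pd a g x * ∑ b, tau ψ x a b * pd b f x) * Real.exp (-V x) = 0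

/-- essential self-adjointness -/
def StmtESAc : Prop := ∀ (n : ℕ) (ψ V : E n → ℝ) (c C M c1 C1 : ℝ), Reg V c1 C1 → MC.MMc ψ V c C M →
  ∀ h : E n → ℝ, MemLp h 2 (mu V) →
    (∀ f : E n → ℝ, Test f → ∫ x, h x * (f x - Lop ψ f x) * Real.exp (-V x) = 0) →
    h =ᵐ[volume] 0

/-- Bochner -/
def StmtBochc : Prop := ∀ (n : ℕ) (ψ V : E n → ℝ) (c C M c1 C1 : ℝ), Reg V c1 C1 → MC.MMc ψ V c C M →
  ∀ f : E n → ℝ, Test f →
    Ex V (fun x => (Lop ψ f x) ^ 2) =
      Ex V (fun x => (tau ψ x * hess f x * tau ψ x * hess f x).trace)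
        + Ex V (fun x => ∑ b, pd b f x * fld ψ f b x)

theorem bl_conv {g : E n → ℝ} (hg : T592.BL g) : AE.BL g := by
  obtain ⟨K, hK, h1, h2⟩ := hg
  refine ⟨⟨K, hK⟩, K, LipschitzWith.of_dist_le_mul fun x y => ?_, h1⟩
  rw [Real.dist_eq, dist_eq_norm]; exact h2 x y

theorem hyp_of (hI : StmtIbpc) (hE : StmtESAc) (hB : StmtBochc) (h : Reg V c1 C1)
    (hM : MC.MMc ψ V c C M) : Hyp ψ V := by
  obtain ⟨a, K, hτ⟩ := tauF_of hM
  refine ⟨fun f g hf hg => hI n ψ V c C M c1 C1 h hM f g hf (bl_conv hg),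
    fun g hg hf => hE n ψ V c C M c1 C1 h hM g hg hf, fun f hf => ?_⟩
  rw [hB n ψ V c C M c1 C1 h hM f hf]
  have h1 : Ex V (gam ψ f) = Ex V (fun x => ∑ b, pd b f x * fld ψ f b x) := by
    congr 1
    funext x
    exact gam_eq_Gf ψ f x
  have h2 : 0 ≤ Ex V (fun x => (tau ψ x * hess f x * tau ψ x * hess f x).trace) := by
    refine T592.Ex_nonneg h fun x => ?_
    have h3 := quad_tensor (tau ψ x) (hess f x) (hτ.psd x) a hτ.a_pos.le (hτ.lower x)
      (hess_isSymm (hf.1.of_le (by norm_cast)) x)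
    refine le_trans ?_ h3
    exact mul_nonneg (sq_nonneg _) (Finset.sum_nonneg fun _ _ => Finset.sum_nonneg fun _ _ => sq_nonneg _)
  linarith

theorem stmtBL_of (hI : StmtIbpc) (hE : StmtESAc) (hB : StmtBochc) : StmtBL := by
  intro n ψ V c C M c1 C1 h hM i j
  obtain ⟨a, K, hτ⟩ := tauF_of hM
  exact gap h hτ (hyp_of hI hE hB h hM) (bl_tau hτ i j)

end Vale.Agent.P254.S2.G467
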