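import Vale.Agent.P254.S2.Hyp365
import Vale.Agent.P254.S2.Esa467

/-! # P254/S2: `StmtBL` is a theorem (ESA route, helper467 + 365 + 929 + 283). -/

namespace Vale.Agent.P254.S2

theorem stmtBL : StmtBL := stmtBL_of_esa G467.EsaC.stmtESAc

end Vale.Agent.P254.S2
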