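import Vale.Agent.P254.S2.AEc

open MeasureTheory Filter Topology
open scoped NNReal ContDiff

namespace Vale.Agent.P254.S2.AEc

open Vale.Agent.P227.M

variable {n : ℕ} {ψ V : E n → ℝ} {c C M c1 C1 : ℝ}

/-- bounded and Lipschitz -/
def BL (f : E n → ℝ) : Prop := ∃ (K : ℝ≥0) (B : ℝ), LipschitzWith K f ∧ ∀ x, |f x| ≤ B

/-- bounded, Lipschitz, compactly supported -/
def BLC (f : E n → ℝ) : Prop := BL f ∧ HasCompactSupport f

lemma BL.mul {f g : E n → ℝ} (hf : BL f) (hg : BL g) : BL (fun x => f x * g x) := by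
  obtain ⟨K, B, hK, hB⟩ := hf
  obtain ⟨K', B', hK', hB'⟩ := hg
  have hB0 : 0 ≤ B := (abs_nonneg _).trans (hB 0)
  have hB0' : 0 ≤ B' := (abs_nonneg _).trans (hB' 0)
  refine ⟨(B * K' + B' * K).toNNReal, B * B', ?_, fun x => ?_⟩
  · refine LipschitzWith.of_dist_le_mul fun x y => ?_
    rw [Real.coe_toNNReal _ (by positivity), Real.dist_eq]
    have e : f x * g x - f y * g y = f x * (g x - g y) + (f x - f y) * g y := by ring
    have h1 : |g x - g y| ≤ K' * dist x y := by rw [← Real.dist_eq]; exact hK'.dist_le_mul x y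
    have h2 : |f x - f y| ≤ K * dist x y := by rw [← Real.dist_eq]; exact hK.dist_le_mul x y
    rw [e]
    refine (abs_add_le _ _).trans ?_
    rw [abs_mul, abs_mul]
    have h3 := mul_le_mul (hB x) h1 (abs_nonneg _) hB0
    have h4 := mul_le_mul h2 (hB' y) (abs_nonneg _) (by positivity)
    calc |f x| * |g x - g y| + |f x - f y| * |g y|
        ≤ B * (K' * dist x y) + K * dist x y * B' := add_le_add h3 h4
      _ = _ := by ring
  · rw [abs_mul]
    exact mul_le_mul (hB x) (hB' x) (abs_nonneg _) hB0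

lemma BL.add {f g : E n → ℝ} (hf : BL f) (hg : BL g) : BL (fun x => f x + g x) := by
  obtain ⟨K, B, hK, hB⟩ := hf
  obtain ⟨K', B', hK', hB'⟩ := hg
  exact ⟨K + K', B + B', hK.add hK', fun x => (abs_add_le _ _).trans (add_le_add (hB x) (hB' x))⟩

lemma BL.neg {f : E n → ℝ} (hf : BL f) : BL (fun x => - f x) := by
  obtain ⟨K, B, hK, hB⟩ := hf
  exact ⟨K, B, hK.neg, fun x => by rw [abs_neg]; exact hB x⟩

lemma BL.sub {f g : E n → ℝ} (hf : BL f) (hg : BL g) : BL (fun x => f x - g x) := by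
  simpa [sub_eq_add_neg] using hf.add hg.neg

lemma BL.const (a : ℝ) : BL (fun _ : E n => a) :=
  ⟨0, |a|, LipschitzWith.const a, fun _ => le_rfl⟩

lemma BL.sum {ι : Type*} (s : Finset ι) {f : ι → E n → ℝ} (hf : ∀ i ∈ s, BL (f i)) :
    BL (fun x => ∑ i ∈ s, f i x) := by
  classical
  induction s using Finset.induction_on with
  | empty => simpa using BL.const (0 : ℝ)
  | insert a s ha ih =>
    have h1 := (hf a (Finset.mem_insert_self a s)).add
      (ih fun i hi => hf i (Finset.mem_insert_of_mem hi))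
    simpa [Finset.sum_insert ha] using h1

lemma BL.continuous {f : E n → ℝ} (hf : BL f) : Continuous f := by
  obtain ⟨K, B, hK, _⟩ := hf; exact hK.continuous

lemma BL.ae_diff {f : E n → ℝ} (hf : BL f) : ∀ᵐ x, DifferentiableAt ℝ f x := by
  obtain ⟨K, B, hK, _⟩ := hf; exact hK.ae_differentiableAt

lemma BLC.mul_right {f g : E n → ℝ} (hf : BLC f) (hg : BL g) : BLC (fun x => f x * g x) :=
  ⟨hf.1.mul hg, hf.2.mul_right⟩

lemma BLC.mul_left {f g : E n → ℝ} (hf : BL f) (hg : BLC g) : BLC (fun x => f x * g x) :=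
  ⟨hf.mul hg.1, hg.2.mul_left⟩

lemma BLC.add {f g : E n → ℝ} (hf : BLC f) (hg : BLC g) : BLC (fun x => f x + g x) :=
  ⟨hf.1.add hg.1, hf.2.add hg.2⟩

lemma BLC.neg {f : E n → ℝ} (hf : BLC f) : BLC (fun x => - f x) :=
  ⟨hf.1.neg, hf.2.neg⟩

lemma BLC.sub {f g : E n → ℝ} (hf : BLC f) (hg : BLC g) : BLC (fun x => f x - g x) := by
  simpa [sub_eq_add_neg] using hf.add hg.neg

lemma BLC.zero : BLC (fun _ : E n => (0 : ℝ)) := ⟨BL.const 0, HasCompactSupport.zero⟩

lemma BLC.sum {ι : Type*} (s : Finset ι) {f : ι → E n → ℝ} (hf : ∀ i ∈ s, BLC (f i)) :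
    BLC (fun x => ∑ i ∈ s, f i x) := by
  classical
  induction s using Finset.induction_on with
  | empty => simpa using BLC.zero
  | insert a s ha ih =>
    have h1 := (hf a (Finset.mem_insert_self a s)).add
      (ih fun i hi => hf i (Finset.mem_insert_of_mem hi))
    simpa [Finset.sum_insert ha] using h1

lemma BLC.integrable {f : E n → ℝ} (hf : BLC f) : Integrable f :=
  hf.1.continuous.integrable_of_hasCompactSupport hf.2

lemma blc_of_test {f : E n → ℝ} (hf : Test f) : BLC f := by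
  obtain ⟨K, hK⟩ := ContDiff.lipschitzWith_of_hasCompactSupport hf.2 hf.1 (by simp)
  obtain ⟨B, hB⟩ := hf.2.exists_bound_of_continuous hf.1.continuous
  exact ⟨⟨K, B, hK, fun x => by simpa using hB x⟩, hf.2⟩

/-- a compactly supported Lipschitz function times a smooth function -/
lemma BLC.mul_smooth {f w : E n → ℝ} (hf : BLC f) (hw : ContDiff ℝ (⊤ : ℕ∞) w) :
    BLC (fun x => f x * w x) := by
  obtain ⟨R, hR⟩ := hf.2.isCompact.isBounded.subset_closedBall (0 : E n)
  have hR' : tsupport f ⊆ Metric.closedBall (0 : E n) (max R 1) :=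
    hR.trans (Metric.closedBall_subset_closedBall (le_max_left _ _))
  let χ : ContDiffBump (0 : E n) := ⟨max R 1, max R 1 + 1, lt_of_lt_of_le one_pos (le_max_right _ _),
    lt_add_one _⟩
  have h1 : (fun x => f x * w x) = fun x => f x * (χ x * w x) := by
    funext x
    by_cases hx : f x = 0
    · simp [hx]
    · have : x ∈ Metric.closedBall (0 : E n) (max R 1) := hR' (subset_tsupport _ hx)
      rw [χ.one_of_mem_closedBall this, one_mul]
  rw [h1]
  have h2 : Test (fun x => χ x * w x) :=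
    ⟨(χ.contDiff (n := (⊤ : ℕ∞))).mul hw, χ.hasCompactSupport.mul_right⟩
  exact hf.mul_right (blc_of_test h2).1

lemma measurable_pd (b : Fin n) (f : E n → ℝ) : Measurable (pd b f) := by
  unfold pd
  exact measurable_fderiv_apply_const ℝ f (ei b)

/-- the integral of a derivative of a compactly supported Lipschitz function vanishes -/
lemma integral_pd {f : E n → ℝ} (hf : BLC f) (b : Fin n) : ∫ x, pd b f x = 0 := by
  obtain ⟨⟨K, B, hK, hB⟩, hc⟩ := hf
  have h1 := LipschitzWith.integral_lineDeriv_mul_eq (μ := (volume : Measure (E n)))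
    (LipschitzWith.const (1 : ℝ)) hK hc (ei b)
  have h2 : ∀ x : E n, lineDeriv ℝ (fun _ : E n => (1 : ℝ)) x (ei b) = 0 := by
    intro x; simp [lineDeriv]
  simp only [h2, zero_mul, integral_zero, mul_one] at h1
  have h3 : ∀ᵐ x : E n, lineDeriv ℝ f x (-(ei b)) = - pd b f x := by
    filter_upwards [hK.ae_differentiableAt] with x hx
    rw [hx.lineDeriv_eq_fderiv]; simp [pd]
  rw [integral_congr_ae h3, integral_neg] at h1
  linarith

/-- derivatives of Lipschitz functions are bounded -/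
lemma BL.pd_bound {f : E n → ℝ} (hf : BL f) : ∃ K : ℝ, ∀ b x, |pd b f x| ≤ K := by
  obtain ⟨K, B, hK, _⟩ := hf
  refine ⟨K, fun b x => ?_⟩
  have h1 := norm_fderiv_le_of_lipschitz ℝ hK (x₀ := x)
  have h2 := (fderiv ℝ f x).le_opNorm (ei b)
  rw [norm_ei, mul_one, Real.norm_eq_abs] at h2
  exact h2.trans h1

lemma pd_eq_zero_of_notMem {f : E n → ℝ} {x : E n} (hx : x ∉ tsupport f) (b : Fin n) :
    pd b f x = 0 := by
  have h1 : f =ᶠ[𝓝 x] fun _ => 0 := notMem_tsupport_iff_eventuallyEq.mp hx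
  unfold pd
  rw [h1.fderiv_eq]; simp

lemma BLC.integrable_pd {f : E n → ℝ} (hf : BLC f) (b : Fin n) : Integrable (pd b f) := by
  obtain ⟨K, hK⟩ := hf.1.pd_bound
  have hfin : volume (tsupport f) < ⊤ := hf.2.isCompact.measure_lt_top
  have h1 : IntegrableOn (pd b f) (tsupport f) := by
    refine Measure.integrableOn_of_bounded (M := K) hfin.ne
      (measurable_pd b f).aestronglyMeasurable ?_
    exact Eventually.of_forall fun x => by simpa using hK b x
  exact (integrableOn_iff_integrable_of_support_subset (fun x hx => by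
    by_contra hcon
    exact hx (pd_eq_zero_of_notMem hcon b))).mp h1

end Vale.Agent.P254.S2.AEc
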