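import Vale.Agent.P254.S2.Ifc
import Vale.Agent.P254.S2.Stein
import Vale.Agent.P254.S2.BasMM

/-! # P254/S2: Stein (`E τ = Cov`, `T_ijk = 2 E x_k τ_ij`) and Bessel: `StmtBes` (helper283) -/

open MeasureTheory
open scoped Topology

namespace Vale.Agent.P254.S2

open Vale.Agent.P227.M Vale.Agent.P254.MC

variable {n : ℕ} {ψ V : E n → ℝ} {c C M c₁ C₁ : ℝ}

lemma bes_core (hV : Reg V c₁ C₁) (h : MMc ψ V c C M) (a : Fin n) (G : E n → ℝ)
    (hG : Differentiable ℝ G) (hG0 : Gr G) (hG1 : ∀ b, Gr (pd b G)) :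
    Ex V (fun x => ∑ b, tau ψ x a b * pd b G x) = Ex V (fun x => x a * G x) := by
  unfold Ex
  rw [core_gr hV h a G hG hG0 hG1]

lemma pd_coord_fun (b j : Fin n) : pd b (fun z : E n => z j) = fun _ => if j = b then 1 else 0 :=
  funext fun x => Vale.Agent.P227.M.pd_coord b j x

lemma diff_coord (j : Fin n) : Differentiable ℝ (fun z : E n => z j) := by
  intro x
  exact ((EuclideanSpace.proj j : E n →L[ℝ] ℝ).hasFDerivAt (x := x)).differentiableAt

lemma bes_cov (hV : Reg V c₁ C₁) (h : MMc ψ V c C M) (i j : Fin n) :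
    Ex V (fun x => tau ψ x i j) = Ex V (fun x => x i * x j) := by
  have h1 := bes_core hV h i (fun z => z j) (diff_coord j) (Gr.coord j) fun b => by
    rw [pd_coord_fun]
    exact Gr.const _
  rw [← h1]
  refine Ex_congr V fun x => ?_
  simp [Vale.Agent.P227.M.pd_coord]

lemma bes_third (hV : Reg V c₁ C₁) (h : MMc ψ V c C M) (i j k : Fin n) :
    Ex V (fun x => x i * x j * x k) =
      Ex V (fun x => tau ψ x i j * x k) + Ex V (fun x => tau ψ x i k * x j) := by
  have hd : Differentiable ℝ (fun z : E n => z j * z k) := (diff_coord j).mul (diff_coord k)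
  have hp : ∀ (b : Fin n) (x : E n), pd b (fun z : E n => z j * z k) x
      = x j * (if k = b then 1 else 0) + (if j = b then 1 else 0) * x k := by
    intro b x
    rw [S2.pd_mul b (diff_coord j x) (diff_coord k x)]
    rw [Vale.Agent.P227.M.pd_coord, Vale.Agent.P227.M.pd_coord]
  have h1 := bes_core hV h i (fun z => z j * z k) hd ((Gr.coord j).mul (Gr.coord k)) fun b => by
    have e : pd b (fun z : E n => z j * z k)
        = fun x : E n => x j * (if k = b then 1 else 0) + (if j = b then 1 else 0) * x k :=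
      funext fun x => hp b x
    rw [e]
    exact ((Gr.coord j).mul (Gr.const _)).add ((Gr.const _).mul (Gr.coord k))
  have e2 : Ex V (fun x => x i * x j * x k) = Ex V (fun x => x i * (x j * x k)) :=
    Ex_congr V fun x => by ring
  rw [e2, ← h1, ← Ex_add hV ((h.gr_tau i j).mul (Gr.coord k)) ((h.gr_tau i k).mul (Gr.coord j))]
  refine Ex_congr V fun x => ?_
  simp only [hp, mul_add, Finset.sum_add_distrib]
  simp
  ring

/-- total symmetry: `T_ijk = 2 E x_k τ_ij` -/
lemma bes_two (hV : Reg V c₁ C₁) (h : MMc ψ V c C M) (i j k : Fin n) :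
    Ex V (fun x => x i * x j * x k) = 2 * Ex V (fun x => x k * tau ψ x i j) := by
  have h1 := bes_third hV h i j k
  have h2 := bes_third hV h j i k
  have h3 := bes_third hV h k i j
  have h4 := bes_third hV h i k j
  have s : ∀ a b d : Fin n, Ex V (fun x => tau ψ x a b * x d) = Ex V (fun x => tau ψ x b a * x d) :=
    fun a b d => Ex_congr V fun x => by rw [h.tau_symm x a b]
  have t1 : Ex V (fun x => x j * x i * x k) = Ex V (fun x => x i * x j * x k) :=
    Ex_congr V fun x => by ring
  have t2 : Ex V (fun x => x k * x i * x j) = Ex V (fun x => x i * x j * x k) :=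
    Ex_congr V fun x => by ring
  have t3 : Ex V (fun x => x i * x k * x j) = Ex V (fun x => x i * x j * x k) :=
    Ex_congr V fun x => by ring
  have t4 : Ex V (fun x => x k * tau ψ x i j) = Ex V (fun x => tau ψ x i j * x k) :=
    Ex_congr V fun x => by ring
  rw [t1, s j i k] at h2
  rw [t2, s k i j, s k j i] at h3
  rw [t4]
  linarith

lemma bes_bessel (hV : Reg V c₁ C₁) (hcen : ∀ i : Fin n, Ex V (fun x => x i) = 0)
    (hcov : ∀ i j : Fin n, Ex V (fun x => x i * x j) = if i = j then 1 else 0)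
    {f : E n → ℝ} (hf : Gr f) :
    ∑ k, (Ex V (fun x => x k * f x)) ^ 2 ≤ Ex V (fun x => f x ^ 2) - (Ex V f) ^ 2 := by
  set m : ℝ := Ex V f with hm
  set s : Fin n → ℝ := fun k => Ex V (fun x => x k * f x) with hs
  have hS : Gr (fun x : E n => ∑ k, s k * x k) :=
    Gr.sum _ fun k _ => (Gr.coord k).const_mul (s k)
  have h0 : 0 ≤ Ex V (fun x => (f x - m - ∑ k, s k * x k) ^ 2) :=
    Ex_nonneg V fun x => sq_nonneg _
  have e1 : Ex V (fun x => (f x - m - ∑ k, s k * x k) ^ 2)
      = Ex V (fun x => f x ^ 2) - 2 * m * m + m ^ 2 - 2 * (∑ k, s k * s k)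
        + 2 * m * (∑ k, s k * Ex V (fun x => x k)) + ∑ k, ∑ l, s k * s l * Ex V (fun x => x k * x l) := by
    have a1 : Ex V (fun x => (f x - m - ∑ k, s k * x k) ^ 2)
        = Ex V (fun x => f x ^ 2 + (-2 * m) * f x + m ^ 2 + (-2) * (∑ k, s k * (x k * f x))
          + (2 * m) * (∑ k, s k * x k) + ∑ k, ∑ l, s k * s l * (x k * x l)) := by
      refine Ex_congr V fun x => ?_
      have b1 : ∑ k, s k * (x k * f x) = (∑ k, s k * x k) * f x := by
        rw [Finset.sum_mul]
        exact Finset.sum_congr rfl fun k _ => by ring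
      have b2 : ∑ k, ∑ l, s k * s l * (x k * x l) = (∑ k, s k * x k) ^ 2 := by
        rw [sq, Finset.sum_mul_sum]
        exact Finset.sum_congr rfl fun k _ => Finset.sum_congr rfl fun l _ => by ring
      rw [b1, b2]
      ring
    have g1 : Gr (fun x => f x ^ 2) := hf.pow 2
    have g2 : Gr (fun x => (-2 * m) * f x) := hf.const_mul _
    have g4 : Gr (fun x => ∑ k, s k * (x k * f x)) :=
      Gr.sum _ fun k _ => ((Gr.coord k).mul hf).const_mul (s k)
    have g6 : Gr (fun x : E n => ∑ k, ∑ l, s k * s l * (x k * x l)) :=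
      Gr.sum _ fun k _ => Gr.sum _ fun l _ => ((Gr.coord k).mul (Gr.coord l)).const_mul _
    rw [a1, Ex_add hV ((((g1.add g2).add (Gr.const _)).add (g4.const_mul _)).add (hS.const_mul _)) g6,
      Ex_add hV (((g1.add g2).add (Gr.const _)).add (g4.const_mul _)) (hS.const_mul _),
      Ex_add hV ((g1.add g2).add (Gr.const _)) (g4.const_mul _),
      Ex_add hV (g1.add g2) (Gr.const _), Ex_add hV g1 g2, Ex_const hV,
      Ex_const_mul, Ex_const_mul, Ex_const_mul,
      Ex_sum hV _ fun k _ => ((Gr.coord k).mul hf).const_mul (s k),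
      Ex_sum hV _ fun k _ => (Gr.coord k).const_mul (s k),
      Ex_sum hV _ fun k _ => Gr.sum _ fun l _ => ((Gr.coord k).mul (Gr.coord l)).const_mul _]
    have c1 : ∀ k, Ex V (fun x : E n => ∑ l, s k * s l * (x k * x l))
        = ∑ l, s k * s l * Ex V (fun x => x k * x l) := fun k => by
      rw [Ex_sum hV _ fun l _ => ((Gr.coord k).mul (Gr.coord l)).const_mul _]
      exact Finset.sum_congr rfl fun l _ => Ex_const_mul _ _ _
    simp only [c1, Ex_const_mul, ← hm]
    have c2 : ∀ k, Ex V (fun x => x k * f x) = s k := fun k => rfl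
    simp only [c2]
    ring
  have e2 : ∑ k, ∑ l, s k * s l * Ex V (fun x : E n => x k * x l) = ∑ k, s k * s k := by
    refine Finset.sum_congr rfl fun k _ => ?_
    simp [hcov]
  have e3 : ∑ k, (Ex V (fun x => x k * f x)) ^ 2 = ∑ k, s k * s k :=
    Finset.sum_congr rfl fun k _ => by rw [sq]
  rw [e1, e2] at h0
  simp only [hcen, mul_zero, Finset.sum_const_zero] at h0
  rw [e3]
  nlinarith [h0]

theorem stmtBes : StmtBes := by
  intro n ψ V c C M c₁ C₁ hV h hcen hcov
  refine ⟨fun i j => ?_, fun i j => ?_⟩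
  · rw [bes_cov hV h i j]
    exact hcov i j
  · have h1 := bes_bessel hV hcen hcov (h.gr_tau i j)
    have h2 : ∑ k, (Ex V (fun x => x i * x j * x k)) ^ 2
        = 4 * ∑ k, (Ex V (fun x => x k * tau ψ x i j)) ^ 2 := by
      rw [Finset.mul_sum]
      refine Finset.sum_congr rfl fun k _ => ?_
      rw [bes_two hV h i j k]
      ring
    rw [h2]
    linarith

end Vale.Agent.P254.S2
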