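import Vale.Agent.P227.M.BasEx

/-! P254 stage 3, block S2 (d) (helper300): from the core identity
`∫ (∑_b τ_ab ∂_b G) e^{-V} = ∫ x_a G e^{-V}` to `E τ = Cov`, `T_ijk = 2 E x_k τ_ij`, Bessel.
Abstract in the matrix field `t`; no evenness. -/

open MeasureTheory
open scoped Topology

namespace Vale.Agent.P254.S2.H300

open Vale.Agent.P227.M

variable {n : ℕ}

/-- the core (Stein) identity for a matrix field `t` -/
def CoreId (t : E n → Matrix (Fin n) (Fin n) ℝ) (V : E n → ℝ) : Prop :=
  ∀ (a : Fin n) (G : E n → ℝ), Differentiable ℝ G → Gr G → (∀ b, Gr (pd b G)) →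
    ∫ x, (∑ b, t x a b * pd b G x) * Real.exp (-(V x)) = ∫ x, (x a * G x) * Real.exp (-(V x))

variable {t : E n → Matrix (Fin n) (Fin n) ℝ} {V : E n → ℝ} {c C : ℝ}

theorem differentiable_coord (i : Fin n) : Differentiable ℝ (fun x : E n => x i) :=
  (EuclideanSpace.proj i : E n →L[ℝ] ℝ).differentiable

theorem CoreId.ex (h : CoreId t V) (a : Fin n) (G : E n → ℝ) (hG : Differentiable ℝ G)
    (h0 : Gr G) (h1 : ∀ b, Gr (pd b G)) :
    Ex V (fun x => ∑ b, t x a b * pd b G x) = Ex V (fun x => x a * G x) := by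
  unfold Ex
  congr 1
  exact h a G hG h0 h1

/-- `E τ_ij = E x_i x_j` -/
theorem CoreId.ex_tau (h : CoreId t V) (i j : Fin n) :
    Ex V (fun x => t x i j) = Ex V (fun x => x i * x j) := by
  have e1 : ∀ b (x : E n), pd b (fun z : E n => z j) x = if j = b then 1 else 0 := fun b x =>
    pd_coord b j x
  have e2 : ∀ b, pd b (fun z : E n => z j) = fun _ => if j = b then (1 : ℝ) else 0 := fun b =>
    funext (e1 b)
  have h2 := h.ex i (fun z => z j) (differentiable_coord j) (Gr.coord j) fun b => by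
    rw [e2 b]
    exact Gr.const _
  rw [← h2]
  refine Ex_congr V fun x => ?_
  simp [e1]

/-- `E x_i x_j x_k = E x_k τ_ij + E x_j τ_ik` -/
theorem CoreId.ex_three (h : CoreId t V) (hV : Reg V c C) (ht : ∀ i j, Gr (fun x => t x i j))
    (i j k : Fin n) :
    Ex V (fun x => x i * x j * x k) = Ex V (fun x => x k * t x i j) + Ex V (fun x => x j * t x i k) := by
  have e1 : ∀ b (x : E n), pd b (fun z : E n => z j * z k) x
      = (if j = b then 1 else 0) * x k + x j * (if k = b then 1 else 0) := fun b x => by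
    rw [pd_mul (differentiable_coord j) (differentiable_coord k), pd_coord, pd_coord]
  have h2 := h.ex i (fun z => z j * z k) ((differentiable_coord j).mul (differentiable_coord k))
    ((Gr.coord j).mul (Gr.coord k)) fun b => by
      rw [funext (e1 b)]
      exact ((Gr.const _).mul (Gr.coord k)).add ((Gr.coord j).mul (Gr.const _))
  have h3 : Ex V (fun x => x i * x j * x k) = Ex V (fun x => x i * (x j * x k)) :=
    Ex_congr V fun x => by ring
  rw [h3, ← h2, ← Ex_add hV ((Gr.coord k).mul (ht i j)) ((Gr.coord j).mul (ht i k))]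
  refine Ex_congr V fun x => ?_
  simp only [e1, mul_add, Finset.sum_add_distrib]
  congr 1
  · rw [Finset.sum_eq_single j]
    · simp
      ring
    · intro b _ hb
      rw [if_neg hb.symm]
      ring
    · intro hb
      exact absurd (Finset.mem_univ j) hb
  · rw [Finset.sum_eq_single k]
    · simp
      ring
    · intro b _ hb
      rw [if_neg hb.symm]
      ring
    · intro hb
      exact absurd (Finset.mem_univ k) hb

/-- `E x_k τ_ij` is totally symmetric and `E x_i x_j x_k = 2 E x_k τ_ij` -/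
theorem CoreId.three_eq (h : CoreId t V) (hV : Reg V c C) (ht : ∀ i j, Gr (fun x => t x i j))
    (hs : ∀ x i j, t x i j = t x j i) (i j k : Fin n) :
    Ex V (fun x => x i * x j * x k) = 2 * Ex V (fun x => x k * t x i j) := by
  have hsym : ∀ a b d : Fin n, Ex V (fun x => x a * t x b d) = Ex V (fun x => x a * t x d b) :=
    fun a b d => Ex_congr V fun x => by rw [hs x b d]
  have hswap : ∀ a b d : Fin n, Ex V (fun x => x a * t x b d) = Ex V (fun x => x b * t x a d) := by
    intro a b d
    have h1 := h.ex_three hV ht b a d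
    have h2 := h.ex_three hV ht a b d
    have h3 : Ex V (fun x => x b * x a * x d) = Ex V (fun x => x a * x b * x d) :=
      Ex_congr V fun x => by ring
    have h4 := hsym d b a
    rw [h3] at h1
    linarith
  have h1 := h.ex_three hV ht i j k
  have h2 : Ex V (fun x => x j * t x i k) = Ex V (fun x => x k * t x i j) := by
    rw [hsym j i k, hswap j k i, hsym k j i]
  rw [h1, h2]
  ring

/-- Bessel's inequality for the coordinates -/
theorem bessel (hV : Reg V c C) (h0 : ∀ i, Ex V (fun x => x i) = 0)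
    (h1 : ∀ i j, Ex V (fun x => x i * x j) = if i = j then 1 else 0) {F : E n → ℝ} (hF : Gr F) :
    ∑ k, (Ex V (fun x => x k * F x)) ^ 2 ≤ Ex V (fun x => F x ^ 2) - (Ex V F) ^ 2 := by
  set a : Fin n → ℝ := fun k => Ex V (fun x => x k * F x) with ha
  set m : ℝ := Ex V F with hm
  have hS : Gr (fun x : E n => ∑ k, a k * x k) := Gr.sum _ fun k _ => (Gr.coord k).const_mul (a k)
  have hlin : Ex V (fun x => ∑ k, a k * x k) = 0 := by
    rw [Ex_sum hV _ fun k _ => (Gr.coord k).const_mul (a k)]
    refine Finset.sum_eq_zero fun k _ => ?_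
    rw [Ex_const_mul, h0, mul_zero]
  have hFS : Ex V (fun x => F x * ∑ k, a k * x k) = ∑ k, a k ^ 2 := by
    have e1 : Ex V (fun x => F x * ∑ k, a k * x k) = Ex V (fun x => ∑ k, a k * (x k * F x)) :=
      Ex_congr V fun x => by
        rw [Finset.mul_sum]
        exact Finset.sum_congr rfl fun k _ => by ring
    rw [e1, Ex_sum hV _ fun k _ => ((Gr.coord k).mul hF).const_mul (a k)]
    refine Finset.sum_congr rfl fun k _ => ?_
    rw [Ex_const_mul, sq]
  have hSS : Ex V (fun x => (∑ k, a k * x k) ^ 2) = ∑ k, a k ^ 2 := by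
    have e1 : Ex V (fun x => (∑ k, a k * x k) ^ 2)
        = Ex V (fun x => ∑ k, ∑ l, a k * a l * (x k * x l)) := Ex_congr V fun x => by
      rw [sq, Finset.sum_mul_sum]
      exact Finset.sum_congr rfl fun k _ => Finset.sum_congr rfl fun l _ => by ring
    rw [e1, Ex_sum hV _ fun k _ => Gr.sum _ fun l _ =>
      ((Gr.coord k).mul (Gr.coord l)).const_mul (a k * a l)]
    refine Finset.sum_congr rfl fun k _ => ?_
    rw [Ex_sum hV _ fun l _ => ((Gr.coord k).mul (Gr.coord l)).const_mul (a k * a l)]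
    rw [Finset.sum_eq_single k]
    · rw [Ex_const_mul, h1]
      simp [sq]
    · intro l _ hl
      rw [Ex_const_mul, h1, if_neg hl.symm, mul_zero]
    · intro hk
      exact absurd (Finset.mem_univ k) hk
  have hpos : 0 ≤ Ex V (fun x => (F x - m - ∑ k, a k * x k) ^ 2) := Ex_nonneg V fun x => sq_nonneg _
  have e2 : Ex V (fun x => (F x - m - ∑ k, a k * x k) ^ 2)
      = Ex V (fun x => F x ^ 2) - m ^ 2 - ∑ k, a k ^ 2 := by
    have e3 : Ex V (fun x => (F x - m - ∑ k, a k * x k) ^ 2)
        = Ex V (fun x => (F x ^ 2 + (m ^ 2 + (-(2 * m)) * F x)) + ((∑ k, a k * x k) ^ 2 +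
          ((-2) * (F x * ∑ k, a k * x k) + (2 * m) * ∑ k, a k * x k))) :=
      Ex_congr V fun x => by ring
    rw [e3, Ex_add hV ((hF.pow 2).add ((Gr.const _).add (hF.const_mul _)))
      ((hS.pow 2).add (((hF.mul hS).const_mul _).add (hS.const_mul _))),
      Ex_add hV (hF.pow 2) ((Gr.const _).add (hF.const_mul _)),
      Ex_add hV (Gr.const _) (hF.const_mul _),
      Ex_add hV (hS.pow 2) (((hF.mul hS).const_mul _).add (hS.const_mul _)),
      Ex_add hV ((hF.mul hS).const_mul _) (hS.const_mul _), Ex_const hV, Ex_const_mul,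
      Ex_const_mul, Ex_const_mul, hlin, hFS, hSS, ← hm]
    ring
  linarith

/-- the conclusion of `StmtBes` for a matrix field with the core identity -/
theorem CoreId.bes (h : CoreId t V) (hV : Reg V c C) (ht : ∀ i j, Gr (fun x => t x i j))
    (hs : ∀ x i j, t x i j = t x j i) (h0 : ∀ i, Ex V (fun x => x i) = 0)
    (h1 : ∀ i j, Ex V (fun x => x i * x j) = if i = j then 1 else 0) (i j : Fin n) :
    Ex V (fun x => t x i j) = (if i = j then 1 else 0) ∧
    ∑ k, (Ex V (fun x => x i * x j * x k)) ^ 2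
      ≤ 4 * (Ex V (fun x => t x i j ^ 2) - (Ex V (fun x => t x i j)) ^ 2) := by
  refine ⟨by rw [h.ex_tau i j, h1 i j], ?_⟩
  have h2 := bessel hV h0 h1 (ht i j)
  have h3 : ∑ k, (Ex V (fun x => x i * x j * x k)) ^ 2
      = 4 * ∑ k, (Ex V (fun x => x k * t x i j)) ^ 2 := by
    rw [Finset.mul_sum]
    refine Finset.sum_congr rfl fun k _ => ?_
    rw [h.three_eq hV ht hs i j k]
    ring
  rw [h3]
  linarith

end Vale.Agent.P254.S2.H300
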