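import Vale.Agent.P254.MC.Defs

/-! # P254 stage 3, block S2: interface (helper93).

`StmtStatic` (the static inequality) follows from `StmtMMc` (block S1), `StmtBL`, `StmtN1`, `StmtBes`
(file `S2/Asm.lean`). -/

open MeasureTheory
open Vale.Agent.P227.M

namespace Vale.Agent.P254.S2

/-- `y(b) = (√(1+8b) - 1)/(2b)` -/
noncomputable def yb (b : ℝ) : ℝ := (Real.sqrt (1 + 8 * b) - 1) / (2 * b)

/-- the energy density `⟨τ ∇f, ∇f⟩` -/
noncomputable def gam {n : ℕ} (ψ f : E n → ℝ) (x : E n) : ℝ :=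
  ∑ k, ∑ l, tau ψ x k l * pd k f x * pd l f x

/-- block BL (283, 700; hedge 93 by ESA): Brascamp-Lieb for the entries of `τ` -/
def StmtBL : Prop := ∀ (n : ℕ) (ψ V : E n → ℝ) (c C M c1 C1 : ℝ), Reg V c1 C1 →
  MC.MMc ψ V c C M → ∀ i j : Fin n,
    Ex V (fun x => (tau ψ x i j) ^ 2) - (Ex V (fun x => tau ψ x i j)) ^ 2 ≤
      Ex V (gam ψ (fun x => tau ψ x i j))

/-- block N1 (232 identity, 711 algebra, 652 hedge) -/
def StmtN1 : Prop := ∀ (n : ℕ) (ψ V : E n → ℝ) (c C M c1 C1 : ℝ), Reg V c1 C1 →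
  MC.MMc ψ V c C M → ∀ w : Fin n → ℝ, (∀ i, 0 ≤ w i) →
    2 * ∑ i, ∑ j, w i * w j * Ex V (gam ψ (fun x => tau ψ x i j)) ≤
      Ex V (fun x => (Matrix.diagonal w * tau ψ x * Matrix.diagonal w * tau ψ x).trace)
        - Ex V (fun x => (hess V x * tau ψ x * Matrix.diagonal w * tau ψ x * Matrix.diagonal w
            * tau ψ x).trace)

/-- block Bes (300, 121): Stein + Bessel; `Cov = 1` -/
def StmtBes : Prop := ∀ (n : ℕ) (ψ V : E n → ℝ) (c C M c1 C1 : ℝ), Reg V c1 C1 →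
  MC.MMc ψ V c C M → (∀ i : Fin n, Ex V (fun x => x i) = 0) →
  (∀ i j : Fin n, Ex V (fun x => x i * x j) = if i = j then 1 else 0) →
    (∀ i j : Fin n, Ex V (fun x => tau ψ x i j) = if i = j then 1 else 0) ∧
    ∀ i j : Fin n, ∑ k, (Ex V (fun x => x i * x j * x k)) ^ 2 ≤
      4 * (Ex V (fun x => (tau ψ x i j) ^ 2) - (Ex V (fun x => tau ψ x i j)) ^ 2)

/-- the static inequality -/
def StmtStatic : Prop := ∀ (n : ℕ) (V : E n → ℝ) (c C : ℝ), Reg V c C →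
  (∀ i : Fin n, Ex V (fun x => x i) = 0) →
  (∀ i j : Fin n, Ex V (fun x => x i * x j) = if i = j then 1 else 0) →
  ∀ b : Fin n → ℝ, (∀ i, 0 < b i) → (∀ i, b i ≤ 1) →
  (∀ (x v : E n), ∑ i, b i * v i ^ 2 ≤ qf (hess V x) v) →
  ∀ cc : Fin n → ℝ, (∀ i, 0 ≤ cc i) →
    ∑ i, ∑ j, Real.sqrt (cc i * cc j) * ∑ k, (Ex V (fun x => x i * x j * x k)) ^ 2 ≤
      ∑ i, cc i * (4 * (yb (b i) - 1))

end Vale.Agent.P254.S2
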