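import Vale.Agent.P254.S2.Bes300
import Vale.Agent.P254.S2.Stein
import Vale.Agent.P254.S2.Ifc

/-! P254 stage 3, block S2 (d) (helper300): `StmtBes`. -/

open MeasureTheory
open scoped Topology

namespace Vale.Agent.P254.S2.H300

open Vale.Agent.P227.M

theorem coreId {n : ℕ} {ψ V : E n → ℝ} {c C M c₁ C₁ : ℝ} (hV : Reg V c₁ C₁)
    (h : MC.MMc ψ V c C M) : CoreId (tau ψ) V := fun a G hG h0 h1 =>
  S2.core_gr hV h a G hG h0 h1

theorem stmtBes : StmtBes := fun _ _ _ _ _ _ _ _ hV h h0 h1 =>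
  ⟨fun i j => ((coreId hV h).bes hV (S2.gr_tau h) (S2.tau_symm h) h0 h1 i j).1,
    fun i j => ((coreId hV h).bes hV (S2.gr_tau h) (S2.tau_symm h) h0 h1 i j).2⟩

end Vale.Agent.P254.S2.H300
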