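import Vale.Agent.P254.S2.Basic

/-! # P227/M/ID: the core weak identity `∫ (∑_b τ_ab ∂_b G) e^{-V} = ∫ x_a G e^{-V}` (helper294)

Change of variables `y = ∇ψ(x)`, no mollification. -/

open MeasureTheory
open scoped Topology

namespace Vale.Agent.P254.S2

open Vale.Agent.P227.M Vale.Agent.P254.MC

variable {n : ℕ} {ψ V : E n → ℝ} {c C M : ℝ}

lemma det_hess_pos (h : MMc ψ V c C M) (x : E n) : 0 < (hess ψ x).det := by
  rw [← det_Aop]
  exact (gmap h).det_pos x

lemma isUnit_hess (h : MMc ψ V c C M) (x : E n) : IsUnit (hess ψ x).det :=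
  (det_hess_pos h x).ne'.isUnit

lemma tau_mul_hess (h : MMc ψ V c C M) (x : E n) : tau ψ x * hess ψ x = 1 :=
  Matrix.nonsing_inv_mul _ (isUnit_hess h x)

lemma hess_mul_tau (h : MMc ψ V c C M) (x : E n) : hess ψ x * tau ψ x = 1 :=
  Matrix.mul_nonsing_inv _ (isUnit_hess h x)

lemma hess_transpose (h : MMc ψ V c C M) (x : E n) : (hess ψ x).transpose = hess ψ x := by
  ext i j
  exact hess_symm h.C2 x j i

lemma tau_transpose (h : MMc ψ V c C M) (x : E n) : (tau ψ x).transpose = tau ψ x := by
  unfold tau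
  rw [Matrix.transpose_nonsing_inv, hess_transpose h x]

lemma tau_symm (h : MMc ψ V c C M) (x : E n) (i j : Fin n) : tau ψ x i j = tau ψ x j i := by
  conv_lhs => rw [← tau_transpose h x]
  rfl

/-- `τ` as an operator -/
noncomputable def Top (ψ : E n → ℝ) (x : E n) : E n →L[ℝ] E n :=
  Matrix.toEuclideanCLM (𝕜 := ℝ) (n := Fin n) (tau ψ x)

lemma Top_apply (ψ : E n → ℝ) (x v : E n) (i : Fin n) :
    Top ψ x v i = ∑ j, tau ψ x i j * v j := by
  unfold Top
  rw [Matrix.ofLp_toEuclideanCLM]
  rfl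

lemma Aop_Top (h : MMc ψ V c C M) (x v : E n) : Aop ψ x (Top ψ x v) = v := by
  have : Aop ψ x * Top ψ x = 1 := by
    unfold Aop Top
    rw [← map_mul, hess_mul_tau h x, map_one]
  exact congrArg (fun T : E n →L[ℝ] E n => T v) this

lemma symm_apply_eq (h : MMc ψ V c C M) (x v : E n) : ((gmap h).eqv x).symm v = Top ψ x v := by
  rw [ContinuousLinearEquiv.symm_apply_eq, Dif.GMap.eqv_apply, Aop_Top h]

lemma Top_ei (x : E n) (a b : Fin n) : Top ψ x (ei a) b = tau ψ x b a := by
  rw [Top_apply]
  simp [ei, Pi.single_apply]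

/-- the Legendre transform -/
noncomputable def ph (h : MMc ψ V c C M) (y : E n) : ℝ :=
  inner ℝ ((gmap h).inv y) y - ψ ((gmap h).inv y)

lemma hasFDerivAt_inv (h : MMc ψ V c C M) (y : E n) :
    HasFDerivAt (gmap h).inv (Top ψ ((gmap h).inv y)) y := by
  have := (gmap h).inv_der y
  refine this.congr_fderiv ?_
  refine ContinuousLinearMap.ext fun v => ?_
  exact symm_apply_eq h _ v

lemma hasFDerivAt_ph (h : MMc ψ V c C M) (y : E n) :
    HasFDerivAt (ph h) (innerSL ℝ ((gmap h).inv y)) y := by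
  have h1 := hasFDerivAt_inv h y
  have h2 := h1.inner ℝ (hasFDerivAt_id y)
  have h3 : HasFDerivAt ψ (fderiv ℝ ψ ((gmap h).inv y)) ((gmap h).inv y) :=
    ((h.C2.differentiable (by norm_num)) _).hasFDerivAt
  have h4 := h2.sub (h3.comp y h1)
  refine h4.congr_fderiv ?_
  refine ContinuousLinearMap.ext fun v => ?_
  simp only [sub_apply, ContinuousLinearMap.comp_apply,
    ContinuousLinearMap.prod_apply, fderivInnerCLM_apply, ContinuousLinearMap.id_apply,
    innerSL_apply_apply, id_eq]
  have h5 : fderiv ℝ ψ ((gmap h).inv y) (Top ψ ((gmap h).inv y) v)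
      = inner ℝ (Top ψ ((gmap h).inv y) v) y := by
    rw [fderiv_apply_eq, inner_eq]
    refine Finset.sum_congr rfl fun i _ => ?_
    congr 1
    have := (gmap h).g_inv y
    conv_rhs => rw [← this]
    rfl
  rw [h5]
  ring

lemma ph_g (h : MMc ψ V c C M) (x : E n) : ph h (gr ψ x) = (∑ i, x i * pd i ψ x) - ψ x := by
  unfold ph
  rw [(gmap h).inv_g, inner_eq]
  rfl

lemma det_exp (h : MMc ψ V c C M) (x : E n) :
    (Aop ψ x).det * Real.exp (-(ph h (gr ψ x))) = Real.exp (-(V x)) := by
  have hd := det_hess_pos h x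
  rw [det_Aop, ph_g, h.ma x]
  rw [show -((∑ i, x i * pd i ψ x) - ψ x - Real.log (hess ψ x).det)
      = Real.log (hess ψ x).det + -((∑ i, x i * pd i ψ x) - ψ x) by ring, Real.exp_add,
    Real.exp_log hd]

/-- transfer of integrals -/
lemma integral_y (h : MMc ψ V c C M) (H : E n → ℝ) :
    ∫ y, H ((gmap h).inv y) * Real.exp (-(ph h y)) = ∫ x, H x * Real.exp (-(V x)) := by
  rw [(gmap h).integral_comp_g volume]
  refine integral_congr_ae (Filter.Eventually.of_forall fun x => ?_)
  simp only [smul_eq_mul, (gmap h).inv_g]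
  rw [← det_exp h x]
  ring

lemma integrable_y (h : MMc ψ V c C M) (H : E n → ℝ) :
    Integrable (fun y => H ((gmap h).inv y) * Real.exp (-(ph h y))) ↔
      Integrable (fun x => H x * Real.exp (-(V x))) := by
  rw [(gmap h).integrable_comp_g volume]
  refine integrable_congr (Filter.Eventually.of_forall fun x => ?_)
  simp only [smul_eq_mul, (gmap h).inv_g]
  rw [← det_exp h x]
  ring

lemma hasFDerivAt_exp_ph (h : MMc ψ V c C M) (y : E n) :
    HasFDerivAt (fun y => Real.exp (-(ph h y)))
      (Real.exp (-(ph h y)) • (-(innerSL ℝ ((gmap h).inv y)))) y := by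
  exact ((hasFDerivAt_ph h y).neg).exp

/-- CORE, `C¹` version with integrability -/
theorem core_c1 (h : MMc ψ V c C M) (a : Fin n) (G : E n → ℝ) (hG : Differentiable ℝ G)
    (h1 : Integrable (fun x => (∑ b, tau ψ x a b * pd b G x) * Real.exp (-(V x))))
    (h2 : Integrable (fun x => (x a * G x) * Real.exp (-(V x))))
    (h3 : Integrable (fun x => G x * Real.exp (-(V x)))) :
    ∫ x, (∑ b, tau ψ x a b * pd b G x) * Real.exp (-(V x))
      = ∫ x, (x a * G x) * Real.exp (-(V x)) := by
  have hd : ∀ y, HasFDerivAt (fun y => G ((gmap h).inv y))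
      ((fderiv ℝ G ((gmap h).inv y)).comp (Top ψ ((gmap h).inv y))) y := fun y =>
    (hG _).hasFDerivAt.comp y (hasFDerivAt_inv h y)
  have hval : ∀ y, fderiv ℝ (fun y => G ((gmap h).inv y)) y (ei a)
      = ∑ b, tau ψ ((gmap h).inv y) a b * pd b G ((gmap h).inv y) := by
    intro y
    rw [(hd y).fderiv]
    rw [ContinuousLinearMap.comp_apply, fderiv_apply_eq]
    refine Finset.sum_congr rfl fun b _ => ?_
    rw [Top_ei, tau_symm h]
  have he : ∀ y, fderiv ℝ (fun y => Real.exp (-(ph h y))) y (ei a)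
      = -((gmap h).inv y a * Real.exp (-(ph h y))) := by
    intro y
    rw [(hasFDerivAt_exp_ph h y).fderiv]
    simp only [smul_apply, neg_apply, innerSL_apply_apply, smul_eq_mul]
    rw [inner_eq]
    simp [ei, Pi.single_apply]
    ring
  have hibp := integral_mul_fderiv_eq_neg_fderiv_mul_of_integrable (𝕜 := ℝ) (μ := volume)
    (f := fun y => G ((gmap h).inv y)) (g := fun y => Real.exp (-(ph h y))) (v := ei a)
    (by
      simp only [hval]
      exact (integrable_y h (fun x => ∑ b, tau ψ x a b * pd b G x)).2 h1)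
    (by
      simp only [he]
      have := ((integrable_y h (fun x => x a * G x)).2 h2).neg
      refine this.congr (Filter.Eventually.of_forall fun y => ?_)
      simp only [Pi.neg_apply]
      ring)
    ((integrable_y h G).2 h3)
    (fun y _ => (hd y).differentiableAt)
    (fun y _ => (hasFDerivAt_exp_ph h y).differentiableAt)
  simp only [hval, he] at hibp
  rw [← integral_y h (fun x => ∑ b, tau ψ x a b * pd b G x), ← integral_y h (fun x => x a * G x)]
  have e1 : ∫ y, G ((gmap h).inv y) * -((gmap h).inv y a * Real.exp (-(ph h y)))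
      = - ∫ y, (gmap h).inv y a * G ((gmap h).inv y) * Real.exp (-(ph h y)) := by
    rw [← integral_neg]
    refine integral_congr_ae (Filter.Eventually.of_forall fun y => ?_)
    simp only
    ring
  rw [e1] at hibp
  linarith

end Vale.Agent.P254.S2
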