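import Vale.Agent.P227.M.LIN.TopD
import Vale.Agent.P227.M.LIN.AffStmt
import Vale.Agent.P227.M.LIN.BL
import Vale.Agent.P254.S2.Ifc

/-! # P254/S2/Gap467: the spectral gap `1` of `-L` from `ESA` + Bochner + integration by parts (abstract form,
no evenness, no `MM`): `Var f ≤ E ⟨τ∇f, ∇f⟩` for bounded Lipschitz `f` (helper467). -/

open MeasureTheory Filter
open scoped Topology InnerProductSpace

namespace Vale.Agent.P254.S2.G467

open Vale.Agent.P227.M Vale.Agent.P227.M.LIN Vale.Agent.P227.M.LIN.T592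

/-- abstract Hilbert space lemma: `r ⟂ ker` of the closure of `A` implies `r ∈ closure (range A)` -/
theorem hilb_range {W H : Type*} [AddCommGroup W] [Module ℝ W] [NormedAddCommGroup H]
    [InnerProductSpace ℝ H] [CompleteSpace H] (J A : W →ₗ[ℝ] H)
    (hs : ∀ f g, inner ℝ (A f) (J g) = inner ℝ (J f) (A g))
    (hn : ∀ f, inner ℝ (A f) (J f) ≤ 0)
    (hd : DenseRange (fun f => J f - A f)) (r : H)
    (h0 : ∀ (h : H) (f : ℕ → W), Tendsto (fun m => J (f m)) atTop (𝓝 h) →
      Tendsto (fun m => A (f m)) atTop (𝓝 0) → inner ℝ r h = 0) :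
    ∀ ε > 0, ∃ u : W, ‖r + A u‖ ≤ ε := by
  have key : ∀ g ∈ (LinearMap.range A)ᗮ, inner ℝ r g = 0 := by
    intro g hg
    have hgA : ∀ f, inner ℝ (A f) g = 0 := fun f =>
      (Submodule.mem_orthogonal _ _).1 hg (A f) (LinearMap.mem_range_self A f)
    have h1 : g ∈ closure (Set.range (fun f => J f - A f)) := hd g
    obtain ⟨s, hs1, hs2⟩ := mem_closure_iff_seq_limit.1 h1
    choose f hf using hs1
    have hlim : Tendsto (fun m => J (f m) - A (f m)) atTop (𝓝 g) := by
      refine hs2.congr fun m => (hf m).symm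
    have hnorm : ∀ d : W, ‖J d‖ ≤ ‖J d - A d‖ := by
      intro d
      have e1 : ‖J d - A d‖ ^ 2 = ‖J d‖ ^ 2 - 2 * inner ℝ (J d) (A d) + ‖A d‖ ^ 2 := norm_sub_sq_real _ _
      have e2 : inner ℝ (J d) (A d) ≤ 0 := by rw [real_inner_comm]; exact hn d
      have e3 : ‖J d‖ ^ 2 ≤ ‖J d - A d‖ ^ 2 := by nlinarith [sq_nonneg ‖A d‖]
      exact (sq_le_sq₀ (norm_nonneg _) (norm_nonneg _)).1 e3
    have hc : CauchySeq (fun m => J (f m)) := by
      have h2 := hlim.cauchySeq
      rw [Metric.cauchySeq_iff] at h2 ⊢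
      intro ε hε
      obtain ⟨N, hN⟩ := h2 ε hε
      refine ⟨N, fun m hm k hk => lt_of_le_of_lt ?_ (hN m hm k hk)⟩
      rw [dist_eq_norm, dist_eq_norm]
      have h3 := hnorm (f m - f k)
      rw [map_sub, map_sub] at h3
      have h4 : J (f m) - A (f m) - (J (f k) - A (f k)) = J (f m) - J (f k) - (A (f m) - A (f k)) := by
        abel
      rw [h4]; exact h3
    obtain ⟨h, hh⟩ := cauchySeq_tendsto_of_complete hc
    have hhg : h = g := by
      have h5 : ∀ d : W, inner ℝ (J d - A d) h = inner ℝ (J d - A d) g := by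
        intro d
        have a1 : Tendsto (fun m => inner ℝ (J d - A d) (J (f m))) atTop (𝓝 (inner ℝ (J d - A d) h)) :=
          tendsto_const_nhds.inner hh
        have a2 : Tendsto (fun m => inner ℝ (J d) (J (f m) - A (f m))) atTop (𝓝 (inner ℝ (J d) g)) :=
          tendsto_const_nhds.inner hlim
        have a3 : ∀ m, inner ℝ (J d - A d) (J (f m)) = inner ℝ (J d) (J (f m) - A (f m)) := by
          intro m
          rw [inner_sub_left, inner_sub_right, hs]
        have a4 := tendsto_nhds_unique a1 (a2.congr fun m => (a3 m).symm)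
        rw [a4, inner_sub_left, hgA d, sub_zero]
      have h6 : ∀ y : H, inner ℝ y (h - g) = 0 := by
        intro y
        refine hd.induction_on (p := fun y => inner ℝ y (h - g) = 0) y ?_ ?_
        · exact isClosed_eq (continuous_id.inner continuous_const) continuous_const
        · intro d
          rw [inner_sub_right, h5 d, sub_self]
      have h7 := h6 (h - g)
      rw [inner_self_eq_zero, sub_eq_zero] at h7
      exact h7
    have hA0 : Tendsto (fun m => A (f m)) atTop (𝓝 0) := by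
      have h8 := hh.sub hlim
      rw [hhg, sub_self] at h8
      refine h8.congr fun m => by abel
    rw [← hhg]
    exact h0 h f hh hA0
  intro ε hε
  have hr : r ∈ (LinearMap.range A).topologicalClosure := by
    rw [← Submodule.orthogonal_orthogonal_eq_closure]
    rw [Submodule.mem_orthogonal]
    intro g hg
    rw [real_inner_comm]
    exact key g hg
  have hr2 : r ∈ closure ((LinearMap.range A : Submodule ℝ H) : Set H) := hr
  obtain ⟨b, hb, hdist⟩ := Metric.mem_closure_iff.1 hr2 ε hε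
  obtain ⟨u, rfl⟩ := hb
  refine ⟨-u, ?_⟩
  rw [map_neg, ← sub_eq_add_neg, ← dist_eq_norm]
  exact hdist.le

variable {n : ℕ} {ψ V : E n → ℝ} {c C a K : ℝ}

theorem gam_eq_Gf (ψ f : E n → ℝ) (x : E n) : gam ψ f x = Gf ψ f f x := by
  unfold gam Gf fld
  refine Finset.sum_congr rfl fun k _ => ?_
  rw [Finset.mul_sum]
  exact Finset.sum_congr rfl fun l _ => by ring

/-- bounded measurable functions are integrable against `e^{-V}` -/
theorem int_bdd (h : Reg V c C) {g : E n → ℝ} (hm : AEStronglyMeasurable g volume) {B : ℝ}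
    (hb : ∀ x, |g x| ≤ B) : Integrable (fun x => g x * Real.exp (-V x)) := by
  refine h.integrable_exp.bdd_mul hm (c := B) (Eventually.of_forall fun x => ?_)
  rw [Real.norm_eq_abs]; exact hb x

/-- the bilinear form -/
noncomputable def bil (ψ f g : E n → ℝ) (x : E n) : ℝ := ∑ k, pd k f x * ∑ l, tau ψ x k l * pd l g x

theorem bil_le (hτ : TauF ψ a K) (f g : E n → ℝ) (x : E n) :
    bil ψ f g x ≤ (gam ψ f x + gam ψ g x) / 2 := by
  have h1 := hτ.lower x (fun k => pd k f x - pd k g x)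
  have h2 : 0 ≤ a * ∑ i, (pd i f x - pd i g x) ^ 2 :=
    mul_nonneg hτ.a_pos.le (Finset.sum_nonneg fun _ _ => sq_nonneg _)
  have h3 : ∑ i, ∑ j, tau ψ x i j * (pd i f x - pd i g x) * (pd j f x - pd j g x) =
      gam ψ f x + gam ψ g x - bil ψ f g x - bil ψ g f x := by
    unfold gam bil
    simp only [Finset.mul_sum]
    rw [← Finset.sum_add_distrib, ← Finset.sum_sub_distrib, ← Finset.sum_sub_distrib]
    refine Finset.sum_congr rfl fun i _ => ?_
    rw [← Finset.sum_add_distrib, ← Finset.sum_sub_distrib, ← Finset.sum_sub_distrib]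
    exact Finset.sum_congr rfl fun j _ => by ring
  have h4 : bil ψ g f x = bil ψ f g x := by
    unfold bil
    simp only [Finset.mul_sum]
    rw [Finset.sum_comm]
    refine Finset.sum_congr rfl fun i _ => Finset.sum_congr rfl fun j _ => ?_
    rw [hτ.symm x j i]; ring
  rw [h4] at h3
  linarith

theorem meas_pd (b : Fin n) (f : E n → ℝ) : Measurable (pd b f) :=
  measurable_fderiv_apply_const ℝ f (ei b)

theorem meas_tau (hτ : TauF ψ a K) (i j : Fin n) : Measurable (fun x => tau ψ x i j) :=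
  (bl_tau hτ i j).cont.measurable

theorem gam_bdd (hτ : TauF ψ a K) {f : E n → ℝ} (hf : T592.BL f) : ∃ B : ℝ, ∀ x, |gam ψ f x| ≤ B := by
  obtain ⟨L, hL⟩ := hf.pd_le
  refine ⟨∑ _k : Fin n, ∑ _l : Fin n, K * L * L, fun x => ?_⟩
  unfold gam
  refine (Finset.abs_sum_le_sum_abs _ _).trans (Finset.sum_le_sum fun k _ => ?_)
  refine (Finset.abs_sum_le_sum_abs _ _).trans (Finset.sum_le_sum fun l _ => ?_)
  rw [abs_mul, abs_mul]
  have hL0 : 0 ≤ L := (abs_nonneg _).trans (hL k x)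
  have hK0 : 0 ≤ K := (abs_nonneg _).trans (hτ.bdd x k l)
  exact mul_le_mul (mul_le_mul (hτ.bdd x k l) (hL k x) (abs_nonneg _) hK0) (hL l x)
    (abs_nonneg _) (by positivity)

theorem bil_bdd (hτ : TauF ψ a K) {f g : E n → ℝ} (hf : T592.BL f) (hg : T592.BL g) :
    ∃ B : ℝ, ∀ x, |bil ψ f g x| ≤ B := by
  obtain ⟨L, hL⟩ := hf.pd_le
  obtain ⟨L', hL'⟩ := hg.pd_le
  refine ⟨∑ _k : Fin n, L * ∑ _l : Fin n, K * L', fun x => ?_⟩
  unfold bil
  refine (Finset.abs_sum_le_sum_abs _ _).trans (Finset.sum_le_sum fun k _ => ?_)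
  have hL0 : 0 ≤ L := (abs_nonneg _).trans (hL k x)
  rw [abs_mul]
  refine mul_le_mul (hL k x) ?_ (abs_nonneg _) hL0
  refine (Finset.abs_sum_le_sum_abs _ _).trans (Finset.sum_le_sum fun l _ => ?_)
  rw [abs_mul]
  have hK0 : 0 ≤ K := (abs_nonneg _).trans (hτ.bdd x k l)
  exact mul_le_mul (hτ.bdd x k l) (hL' l x) (abs_nonneg _) hK0

theorem meas_gam (hτ : TauF ψ a K) (f : E n → ℝ) : Measurable (gam ψ f) := by
  unfold gam
  refine Finset.measurable_fun_sum _ fun k _ => Finset.measurable_fun_sum _ fun l _ => ?_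
  exact ((meas_tau hτ k l).mul (meas_pd k f)).mul (meas_pd l f)

theorem meas_bil (hτ : TauF ψ a K) (f g : E n → ℝ) : Measurable (bil ψ f g) := by
  unfold bil
  refine Finset.measurable_fun_sum _ fun k _ => (meas_pd k f).mul ?_
  exact Finset.measurable_fun_sum _ fun l _ => (meas_tau hτ k l).mul (meas_pd l g)

theorem int_gam (h : Reg V c C) (hτ : TauF ψ a K) {f : E n → ℝ} (hf : T592.BL f) :
    Integrable (fun x => gam ψ f x * Real.exp (-V x)) := by
  obtain ⟨B, hB⟩ := gam_bdd hτ hf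
  exact int_bdd h (meas_gam hτ f).aestronglyMeasurable hB

theorem int_bil (h : Reg V c C) (hτ : TauF ψ a K) {f g : E n → ℝ} (hf : T592.BL f) (hg : T592.BL g) :
    Integrable (fun x => bil ψ f g x * Real.exp (-V x)) := by
  obtain ⟨B, hB⟩ := bil_bdd hτ hf hg
  exact int_bdd h (meas_bil hτ f g).aestronglyMeasurable hB

/-- the hypotheses: integration by parts, essential self-adjointness, Bochner -/
structure Hyp (ψ V : E n → ℝ) : Prop where
  ibp : ∀ f g : E n → ℝ, Test f → T592.BL g →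
    ∫ x, (g x * Lop ψ f x + bil ψ g f x) * Real.exp (-V x) = 0
  esa : ∀ g : E n → ℝ, MemLp g 2 (mu V) →
    (∀ f, Test f → ∫ x, g x * (f x - Lop ψ f x) * Real.exp (-V x) = 0) → g =ᵐ[volume] 0
  boch : ∀ f, Test f → Ex V (gam ψ f) ≤ Ex V (fun x => Lop ψ f x ^ 2)

theorem ibp' (h : Reg V c C) (hτ : TauF ψ a K) (hH : Hyp ψ V) {f g : E n → ℝ} (hf : Test f)
    (hg : T592.BL g) :
    ∫ x, g x * Lop ψ f x * Real.exp (-V x) = -∫ x, bil ψ g f x * Real.exp (-V x) := by
  have h1 := hH.ibp f g hf hg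
  have h2 : ∫ x, (g x * Lop ψ f x + bil ψ g f x) * Real.exp (-V x) =
      (∫ x, g x * Lop ψ f x * Real.exp (-V x)) + ∫ x, bil ψ g f x * Real.exp (-V x) := by
    rw [← integral_add (h.integrable_gr (hg.gr.mul (bl_Lop hτ hf).gr)) (int_bil h hτ hg (BL.of_test hf))]
    congr 1
    funext x; ring
  linarith

theorem inner_JA' (h : Reg V c C) (hτ : TauF ψ a K) (hH : Hyp ψ V) (f g : TF n) :
    inner ℝ (Jm h f) (Am h hτ g) = -∫ x, bil ψ f.1 g.1 x * Real.exp (-V x) := by
  rw [← ibp' h hτ hH g.2 (BL.of_test f.2)]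
  exact inner_toLp h.cont (memLp_gr h (gr_test f.2)) (memLp_gr h (bl_Lop hτ g.2).gr)

theorem bil_comm (hτ : TauF ψ a K) (f g : E n → ℝ) (x : E n) : bil ψ g f x = bil ψ f g x := by
  unfold bil
  simp only [Finset.mul_sum]
  rw [Finset.sum_comm]
  refine Finset.sum_congr rfl fun i _ => Finset.sum_congr rfl fun j _ => ?_
  rw [hτ.symm x j i]; ring

theorem bil_self (ψ f : E n → ℝ) (x : E n) : bil ψ f f x = gam ψ f x := by
  unfold bil gam
  refine Finset.sum_congr rfl fun k _ => ?_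
  rw [Finset.mul_sum]
  exact Finset.sum_congr rfl fun l _ => by ring

theorem gam_nonneg (hτ : TauF ψ a K) (f : E n → ℝ) (x : E n) : 0 ≤ gam ψ f x := by
  rw [gam_eq_Gf]; exact Gf_nonneg hτ f x

theorem sym' (h : Reg V c C) (hτ : TauF ψ a K) (hH : Hyp ψ V) (f g : TF n) :
    inner ℝ (Am h hτ f) (Jm h g) = inner ℝ (Jm h f) (Am h hτ g) := by
  rw [real_inner_comm, inner_JA' h hτ hH, inner_JA' h hτ hH]
  simp only [bil_comm hτ g.1 f.1]

theorem neg' (h : Reg V c C) (hτ : TauF ψ a K) (hH : Hyp ψ V) (f : TF n) :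
    inner ℝ (Am h hτ f) (Jm h f) ≤ 0 := by
  rw [real_inner_comm, inner_JA' h hτ hH]
  have : 0 ≤ ∫ x, bil ψ f.1 f.1 x * Real.exp (-V x) := integral_nonneg fun x => by
    rw [bil_self]
    exact mul_nonneg (gam_nonneg hτ _ _) (Real.exp_pos _).le
  linarith

theorem dense' (h : Reg V c C) (hτ : TauF ψ a K) (hH : Hyp ψ V) :
    DenseRange (fun f : TF n => Jm h f - Am h hτ f) := by
  have h1 : (LinearMap.range (Jm h - Am h hτ)).topologicalClosure = ⊤ := by
    rw [Submodule.topologicalClosure_eq_top_iff, Submodule.eq_bot_iff]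
    intro g hg
    rw [Submodule.mem_orthogonal'] at hg
    have h2 : (g : E n → ℝ) =ᵐ[volume] 0 := by
      refine hH.esa g (Lp.memLp g) fun f hf => ?_
      have h3 := hg ((Jm h - Am h hτ) ⟨f, hf⟩) (LinearMap.mem_range_self _ _)
      rw [LinearMap.sub_apply, inner_sub_right] at h3
      have e1 : inner ℝ g (Jm h ⟨f, hf⟩) = ∫ x, g x * f x * Real.exp (-V x) :=
        inner_lp_toLp h.cont g (memLp_gr h (gr_test hf))
      have e2 : inner ℝ g (Am h hτ ⟨f, hf⟩) = ∫ x, g x * Lop ψ f x * Real.exp (-V x) :=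
        inner_lp_toLp h.cont g (memLp_gr h (bl_Lop hτ hf).gr)
      rw [e1, e2] at h3
      have i1 : Integrable (fun x => g x * f x * Real.exp (-V x)) := by
        have := (Lp.memLp g).integrable_mul (memLp_gr h (gr_test hf))
        exact (integrable_mu h.cont _).1 this
      have i2 : Integrable (fun x => g x * Lop ψ f x * Real.exp (-V x)) := by
        have := (Lp.memLp g).integrable_mul (memLp_gr h (bl_Lop hτ hf).gr)
        exact (integrable_mu h.cont _).1 this
      rw [← h3, ← integral_sub i1 i2]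
      refine integral_congr_ae (Eventually.of_forall fun x => ?_)
      ring
    rw [Lp.eq_zero_iff_ae_eq_zero]
    exact (mu_ac V).ae_eq h2
  have h2 := Submodule.dense_iff_topologicalClosure_eq_top.2 h1
  have h3 : Set.range (fun f : TF n => Jm h f - Am h hτ f)
      = ((LinearMap.range (Jm h - Am h hτ) : Submodule ℝ _) : Set _) := by
    ext y; simp
  rw [DenseRange, h3]
  exact h2

/-- gradients tending to `0`: the limit is constant -/
theorem const' (h : Reg V c C) (f : ℕ → E n → ℝ) (g : E n → ℝ) (hf : ∀ m, Test (f m))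
    (hg : MemLp g 2 (mu V)) (h1 : Tendsto (fun m => Ex V (fun x => (f m x - g x) ^ 2)) atTop (𝓝 0))
    (h2 : Tendsto (fun m => Ex V (fun x => ∑ a, (pd a (f m) x) ^ 2)) atTop (𝓝 0)) :
    ∃ a0 : ℝ, g =ᵐ[volume] fun _ => a0 := by
  have hV : Continuous V := h.cont
  have hZ := h.Z_pos
  have hc : ∀ i m, Continuous (pd i (f m)) := fun i m =>
    Aff.pd_continuous ((hf m).1.of_le (by exact_mod_cast le_top)) i
  exact Aff.ae_const_of_grad hV hf (aesm_of_memLp hV hg) (int_sq_of_memLp hV hg) (ex_tendsto hZ h1)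
    (fun i => sum_tendsto hV (g := fun i m => pd i (f m)) hc (fun i m => Aff.pd_supp (hf m).2 i)
      (ex_tendsto hZ h2) i)

theorem tendsto_Ex_sub' (h : Reg V c C) (g : Lp ℝ 2 (mu V)) (f : ℕ → TF n)
    (hf : Tendsto (fun m => Jm h (f m)) atTop (𝓝 g)) :
    Tendsto (fun m => Ex V (fun x => ((f m).1 x - g x) ^ 2)) atTop (𝓝 0) := by
  have h1 : Tendsto (fun m => ‖Jm h (f m) - g‖ ^ 2 / (∫ x, Real.exp (-V x))) atTop (𝓝 0) := by
    have h2 : Tendsto (fun m => ‖Jm h (f m) - g‖) atTop (𝓝 0) := tendsto_iff_norm_sub_tendsto_zero.1 hf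
    have := (h2.pow 2).div_const (∫ x, Real.exp (-V x))
    simpa using this
  refine h1.congr fun m => ?_
  have := normsq_sub h (memLp_gr h (gr_test (f m).2)) g
  rw [div_eq_iff h.Z_pos.ne', mul_comm]
  exact this

theorem ker0' (h : Reg V c C) (hτ : TauF ψ a K) (hH : Hyp ψ V) {r : E n → ℝ} (hr : Gr r)
    (hr0 : Ex V r = 0) (g : Lp ℝ 2 (mu V))
    (f : ℕ → TF n) (hf : Tendsto (fun m => Jm h (f m)) atTop (𝓝 g))
    (hA : Tendsto (fun m => Am h hτ (f m)) atTop (𝓝 0)) :
    inner ℝ ((memLp_gr h hr).toLp r) g = 0 := by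
  have hZ := h.Z_pos
  have t1 : Tendsto (fun m => Ex V (fun x => Lop ψ (f m).1 x ^ 2)) atTop (𝓝 0) := by
    have h2 : Tendsto (fun m => ‖Am h hτ (f m)‖ ^ 2 / (∫ x, Real.exp (-V x))) atTop (𝓝 0) := by
      have := (hA.norm.pow 2).div_const (∫ x, Real.exp (-V x))
      simpa using this
    refine h2.congr fun m => ?_
    rw [normsq_A, mul_div_cancel_left₀ _ hZ.ne']
  have t2 : Tendsto (fun m => Ex V (fun x => ∑ i, pd i (f m).1 x ^ 2)) atTop (𝓝 0) := by
    have t3 := t1.const_mul a⁻¹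
    rw [mul_zero] at t3
    refine squeeze_zero (fun m => T592.Ex_nonneg h fun x => Finset.sum_nonneg fun _ _ => sq_nonneg _)
      (fun m => ?_) t3
    have h1 := hH.boch (f m).1 (f m).2
    have h3 : a * Ex V (fun x => ∑ i, pd i (f m).1 x ^ 2) ≤ Ex V (gam ψ (f m).1) := by
      rw [← T592.Ex_const_mul]
      refine T592.Ex_mono h (h.integrable_gr ?_) (int_gam h hτ (BL.of_test (f m).2)) fun x => ?_
      · exact (Gr.sum _ fun i _ => (gr_test (test_pd (f m).2 i)).pow 2).const_mul a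
      · rw [gam_eq_Gf]; exact Gf_ge hτ _ x
    rw [inv_mul_eq_div, le_div_iff₀ hτ.a_pos]
    linarith
  obtain ⟨a0, ha0⟩ := const' h (fun m => (f m).1) g (fun m => (f m).2) (Lp.memLp g)
    (tendsto_Ex_sub' h g f hf) t2
  rw [real_inner_comm, inner_lp_toLp h.cont]
  have h1 : ∫ x, g x * r x * Real.exp (-V x) = ∫ x, a0 * (r x * Real.exp (-V x)) := by
    refine integral_congr_ae ?_
    filter_upwards [ha0] with x hx
    rw [hx]; ring
  rw [h1, integral_const_mul, int_eq_Ex h, hr0]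
  ring

theorem ex_const (h : Reg V c C) (m0 : ℝ) : Ex V (fun _ => m0) = m0 := by
  unfold Ex
  rw [integral_const_mul, mul_div_assoc, div_self h.Z_pos.ne', mul_one]

theorem ex_sub (h : Reg V c C) {f g : E n → ℝ} (hf : Gr f) (hg : Gr g) :
    Ex V (fun x => f x - g x) = Ex V f - Ex V g := by
  unfold Ex
  rw [← sub_div, ← integral_sub (h.integrable_gr hf) (h.integrable_gr hg)]
  congr 2
  funext x; ring

/-- the gap inequality -/
theorem gap (h : Reg V c C) (hτ : TauF ψ a K) (hH : Hyp ψ V) {f : E n → ℝ} (hf : T592.BL f) :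
    Ex V (fun x => f x ^ 2) - (Ex V f) ^ 2 ≤ Ex V (gam ψ f) := by
  have hZ := h.Z_pos
  set Z : ℝ := ∫ x, Real.exp (-V x) with hZd
  set m0 : ℝ := Ex V f with hm0
  have hconst : T592.BL (fun _ : E n => m0) := ⟨|m0|, abs_nonneg _, fun _ => le_rfl, fun x y => by
    rw [sub_self, abs_zero]; positivity⟩
  have hf0 : T592.BL (fun x => f x - m0) := hf.sub hconst
  have hmean : Ex V (fun x => f x - m0) = 0 := by
    rw [ex_sub h hf.gr (Gr.const m0), ex_const h, hm0, sub_self]
  have hsq : Ex V (fun x => (f x - m0) ^ 2) = Ex V (fun x => f x ^ 2) - m0 ^ 2 := by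
    have e1 : (fun x => (f x - m0) ^ 2) = fun x => (f x ^ 2 - (2 * m0) * f x) + m0 ^ 2 := by
      funext x; ring
    rw [e1, T592.Ex_add (h.integrable_gr ((hf.gr.pow 2).sub (hf.gr.const_mul _)))
      (h.integrable_gr (Gr.const _)), ex_sub h (hf.gr.pow 2) (hf.gr.const_mul _), T592.Ex_const_mul,
      ex_const h, ← hm0]
    ring
  have hpd : ∀ x, gam ψ (fun x => f x - m0) x = gam ψ f x := by
    intro x
    have e1 : ∀ k, pd k (fun x => f x - m0) x = pd k f x := by
      intro k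
      unfold pd
      rw [fderiv_sub_const]
    unfold gam
    simp only [e1]
  set r : Lp ℝ 2 (mu V) := (memLp_gr h hf0.gr).toLp (fun x => f x - m0) with hr
  have hrn : ‖r‖ ^ 2 = Z * Ex V (fun x => (f x - m0) ^ 2) := normsq_toLp h (memLp_gr h hf0.gr)
  have hgint : ∫ x, gam ψ f x * Real.exp (-V x) = Z * Ex V (gam ψ f) := int_eq_Ex h (gam ψ f)
  have main : ∀ ε > 0, ‖r‖ ^ 2 ≤ ε * ‖r‖ + (Z * Ex V (gam ψ f) + (‖r‖ + ε) ^ 2) / 2 := by
    intro ε hε
    obtain ⟨u, hu⟩ := hilb_range (Jm h) (Am h hτ) (sym' h hτ hH) (neg' h hτ hH) (dense' h hτ hH) r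
      (fun g f' hf' hA' => ker0' h hτ hH hf0.gr hmean g f' hf' hA') ε hε
    have e1 : ‖r‖ ^ 2 = inner ℝ r (r + Am h hτ u) - inner ℝ r (Am h hτ u) := by
      rw [inner_add_right, real_inner_self_eq_norm_sq]; ring
    have e2 : inner ℝ r (r + Am h hτ u) ≤ ‖r‖ * ε :=
      (real_inner_le_norm _ _).trans (mul_le_mul_of_nonneg_left hu (norm_nonneg _))
    have e3 : inner ℝ r (Am h hτ u) = -∫ x, bil ψ (fun x => f x - m0) u.1 x * Real.exp (-V x) := by
      rw [← ibp' h hτ hH u.2 hf0]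
      exact inner_toLp h.cont (memLp_gr h hf0.gr) (memLp_gr h (bl_Lop hτ u.2).gr)
    have e4 : ∫ x, bil ψ (fun x => f x - m0) u.1 x * Real.exp (-V x) ≤
        ((∫ x, gam ψ f x * Real.exp (-V x)) + ∫ x, gam ψ u.1 x * Real.exp (-V x)) / 2 := by
      rw [← integral_add (int_gam h hτ hf) (int_gam h hτ (BL.of_test u.2)), ← integral_div]
      refine integral_mono (int_bil h hτ hf0 (BL.of_test u.2)) ?_ fun x => ?_
      · exact ((int_gam h hτ hf).add (int_gam h hτ (BL.of_test u.2))).div_const 2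
      · have e5 := bil_le hτ (fun x => f x - m0) u.1 x
        rw [hpd x] at e5
        have e6 := mul_le_mul_of_nonneg_right e5 (Real.exp_pos (-V x)).le
        refine e6.trans (le_of_eq ?_)
        ring
    have e7 : ∫ x, gam ψ u.1 x * Real.exp (-V x) ≤ ‖Am h hτ u‖ ^ 2 := by
      rw [normsq_A, int_eq_Ex h]
      exact mul_le_mul_of_nonneg_left (hH.boch u.1 u.2) hZ.le
    have e8 : ‖Am h hτ u‖ ≤ ‖r‖ + ε := by
      have e9 : Am h hτ u = (r + Am h hτ u) - r := by abel
      rw [e9]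
      refine (norm_sub_le _ _).trans ?_
      linarith
    have e10 : ‖Am h hτ u‖ ^ 2 ≤ (‖r‖ + ε) ^ 2 := pow_le_pow_left₀ (norm_nonneg _) e8 2
    rw [hgint] at e4
    rw [e3] at e1
    nlinarith
  have lim : ‖r‖ ^ 2 ≤ 0 * ‖r‖ + (Z * Ex V (gam ψ f) + (‖r‖ + 0) ^ 2) / 2 := by
    have hcont : Tendsto (fun ε : ℝ => ε * ‖r‖ + (Z * Ex V (gam ψ f) + (‖r‖ + ε) ^ 2) / 2) (𝓝[>] 0)
        (𝓝 (0 * ‖r‖ + (Z * Ex V (gam ψ f) + (‖r‖ + 0) ^ 2) / 2)) := by
      refine Tendsto.mono_left ?_ nhdsWithin_le_nhds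
      exact Continuous.tendsto (by fun_prop) 0
    exact ge_of_tendsto hcont (eventually_nhdsWithin_of_forall fun ε hε => main ε hε)
  have fin : ‖r‖ ^ 2 ≤ Z * Ex V (gam ψ f) := by
    have : (‖r‖ + 0) ^ 2 = ‖r‖ ^ 2 := by ring
    linarith
  rw [hrn] at fin
  have fin2 := le_of_mul_le_mul_left fin hZ
  rw [hsq] at fin2
  exact fin2

end Vale.Agent.P254.S2.G467
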