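import Mathlib

/-! # P254/S2: Brascamp-Lieb from Prekopa-Leindler, second order expansion (helper711) -/

open MeasureTheory Filter
open scoped Topology

namespace Vale.Agent.P254.S2.G711

lemma exp_low {s : ℝ} (hs : |s| ≤ 1) : 1 + s + s ^ 2 / 2 - |s| ^ 3 ≤ Real.exp s := by
  have h := Real.exp_bound hs (n := 3) (by norm_num)
  have e : ∑ m ∈ Finset.range 3, s ^ m / (m.factorial : ℝ) = 1 + s + s ^ 2 / 2 := by
    simp [Finset.sum_range_succ, Nat.factorial]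
  rw [e] at h
  have h2 := (abs_le.1 h).1
  have h3 : |s| ^ 3 * ((Nat.succ 3 : ℝ) / (((3 : ℕ).factorial : ℝ) * (3 : ℕ))) ≤ |s| ^ 3 := by
    have h4 : ((Nat.succ 3 : ℝ) / (((3 : ℕ).factorial : ℝ) * (3 : ℕ))) ≤ 1 := by
      norm_num [Nat.factorial]
    have h5 : 0 ≤ |s| ^ 3 := by positivity
    nlinarith
  linarith

lemma exp_upp {s : ℝ} (hs : |s| ≤ 1) : Real.exp s ≤ 1 + s + s ^ 2 := by
  have h := (abs_le.1 (Real.abs_exp_sub_one_sub_id_le hs)).2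
  linarith

variable {E : Type*} [MeasurableSpace E] {μ : Measure E}

/-- the second order expansion -/
theorem second_order {ρ f g : E → ℝ} {B G K : ℝ} (hρ : ∀ x, 0 ≤ ρ x) (hρi : Integrable ρ μ)
    (hZ : 0 < ∫ x, ρ x ∂μ)
    (hf : AEStronglyMeasurable f μ) (hg : AEStronglyMeasurable g μ)
    (hB : ∀ x, |f x| ≤ B) (hG : ∀ x, |g x| ≤ G) (hK : 0 ≤ K)
    (hPL : ∀ ε : ℝ, 0 < ε → ε ≤ 1 →
      (∫ x, Real.exp (2 * ε * f x) * ρ x ∂μ) * (∫ x, Real.exp (-(2 * ε * f x)) * ρ x ∂μ)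
        ≤ (∫ x, Real.exp (2 * ε ^ 2 * g x + K * ε ^ 3) * ρ x ∂μ) ^ 2) :
    (∫ x, ρ x ∂μ) * (∫ x, f x ^ 2 * ρ x ∂μ) - (∫ x, f x * ρ x ∂μ) ^ 2
      ≤ (∫ x, ρ x ∂μ) * ∫ x, g x * ρ x ∂μ := by
  set Z : ℝ := ∫ x, ρ x ∂μ with hZd
  set a : ℝ := ∫ x, f x * ρ x ∂μ with had
  set b : ℝ := ∫ x, f x ^ 2 * ρ x ∂μ with hbd
  set γ : ℝ := ∫ x, g x * ρ x ∂μ with hγd
  have hB0 : 0 ≤ B := by
    by_contra hneg
    push Not at hneg
    have : ∀ x : E, False := fun x => by have := (abs_nonneg (f x)).trans (hB x); linarith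
    have hE : IsEmpty E := ⟨this⟩
    rw [hZd] at hZ
    simp [Measure.eq_zero_of_isEmpty μ] at hZ
  have hG0 : 0 ≤ G := by
    by_contra hneg
    push Not at hneg
    have : ∀ x : E, False := fun x => by have := (abs_nonneg (g x)).trans (hG x); linarith
    have hE : IsEmpty E := ⟨this⟩
    rw [hZd] at hZ
    simp [Measure.eq_zero_of_isEmpty μ] at hZ
  -- integrability
  have bdd : ∀ {h : E → ℝ} {D : ℝ}, AEStronglyMeasurable h μ → (∀ x, |h x| ≤ D) →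
      Integrable (fun x => h x * ρ x) μ := fun {h D} hm hD =>
    hρi.bdd_mul hm (Eventually.of_forall fun x => by rw [Real.norm_eq_abs]; exact hD x)
  have if1 : Integrable (fun x => f x * ρ x) μ := bdd hf hB
  have if2 : Integrable (fun x => f x ^ 2 * ρ x) μ := bdd (D := B ^ 2) (hf.pow 2) fun x => by
    rw [abs_pow]
    exact pow_le_pow_left₀ (abs_nonneg _) (hB x) 2
  have ig : Integrable (fun x => g x * ρ x) μ := bdd hg hG
  have iexp : ∀ {h : E → ℝ} {D : ℝ}, AEStronglyMeasurable h μ → (∀ x, |h x| ≤ D) →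
      Integrable (fun x => Real.exp (h x) * ρ x) μ := fun {h D} hm hD =>
    bdd (h := fun x => Real.exp (h x)) (D := Real.exp D)
      (Real.continuous_exp.comp_aestronglyMeasurable hm) fun x => by
      rw [Real.abs_exp]
      exact Real.exp_le_exp.2 ((le_abs_self _).trans (hD x))
  set K1 : ℝ := (2 * B) ^ 3 with hK1
  set L : ℝ := 2 * G + K with hL
  have hL0 : 0 ≤ L := by positivity
  set ε0 : ℝ := 1 / (1 + 2 * B + L) with hε0
  have hε0p : 0 < ε0 := by positivity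
  have hε01 : ε0 ≤ 1 := by
    rw [hε0, div_le_one (by positivity)]
    linarith
  -- lower bound
  have low : ∀ ε : ℝ, 0 < ε → ε ≤ ε0 → ∀ σ : ℝ, |σ| = 1 →
      Z + 2 * (σ * ε) * a + 2 * ε ^ 2 * b - K1 * Z * ε ^ 3
        ≤ ∫ x, Real.exp (σ * (2 * ε * f x)) * ρ x ∂μ := by
    intro ε he he0 σ hσ
    have hσ2 : σ ^ 2 = 1 := by rw [← sq_abs, hσ]; norm_num
    have e : Z + 2 * (σ * ε) * a + 2 * ε ^ 2 * b - K1 * Z * ε ^ 3
        = ∫ x, (ρ x + 2 * (σ * ε) * (f x * ρ x) + 2 * ε ^ 2 * (f x ^ 2 * ρ x)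
          - K1 * ε ^ 3 * ρ x) ∂μ := by
      have i2 := if1.const_mul (2 * (σ * ε))
      have i3 := if2.const_mul (2 * ε ^ 2)
      have i4 := hρi.const_mul (K1 * ε ^ 3)
      have i12 : Integrable (fun x => ρ x + 2 * (σ * ε) * (f x * ρ x)) μ := hρi.add i2
      have i123 : Integrable (fun x => ρ x + 2 * (σ * ε) * (f x * ρ x)
        + 2 * ε ^ 2 * (f x ^ 2 * ρ x)) μ := i12.add i3
      rw [integral_sub i123 i4, integral_add i12 i3, integral_add hρi i2,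
        integral_const_mul, integral_const_mul, integral_const_mul]
      ring
    rw [e]
    have i2 := if1.const_mul (2 * (σ * ε))
    have i3 := if2.const_mul (2 * ε ^ 2)
    have i4 := hρi.const_mul (K1 * ε ^ 3)
    have iL : Integrable (fun x => ρ x + 2 * (σ * ε) * (f x * ρ x)
        + 2 * ε ^ 2 * (f x ^ 2 * ρ x) - K1 * ε ^ 3 * ρ x) μ := ((hρi.add i2).add i3).sub i4
    have hb : ∀ x, |σ * (2 * ε * f x)| ≤ 2 * ε * B := fun x => by
      rw [abs_mul, hσ, one_mul, abs_mul, abs_of_pos (by positivity : (0 : ℝ) < 2 * ε)]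
      exact mul_le_mul_of_nonneg_left (hB x) (by positivity)
    have iR : Integrable (fun x => Real.exp (σ * (2 * ε * f x)) * ρ x) μ :=
      iexp (D := 2 * ε * B) ((hf.const_mul (2 * ε)).const_mul σ) hb
    refine integral_mono iL iR fun x => ?_
    have h1 : 2 * ε * B ≤ 1 := by
      have : ε * (1 + 2 * B + L) ≤ 1 := by
        rw [hε0, le_div_iff₀ (by positivity)] at he0
        exact he0
      nlinarith [mul_nonneg he.le hL0, mul_nonneg he.le hB0]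
    have h2 := exp_low (s := σ * (2 * ε * f x)) ((hb x).trans h1)
    have h3 : |σ * (2 * ε * f x)| ^ 3 ≤ K1 * ε ^ 3 := by
      calc |σ * (2 * ε * f x)| ^ 3 ≤ (2 * ε * B) ^ 3 := pow_le_pow_left₀ (abs_nonneg _) (hb x) 3
        _ = K1 * ε ^ 3 := by rw [hK1]; ring
    have h4 : 1 + 2 * (σ * ε) * f x + 2 * ε ^ 2 * f x ^ 2 - K1 * ε ^ 3
        ≤ Real.exp (σ * (2 * ε * f x)) := by
      have e1 : (σ * (2 * ε * f x)) ^ 2 / 2 = 2 * ε ^ 2 * f x ^ 2 := by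
        rw [mul_pow, hσ2]
        ring
      rw [e1] at h2
      linarith
    have h5 := mul_le_mul_of_nonneg_right h4 (hρ x)
    simp only
    calc ρ x + 2 * (σ * ε) * (f x * ρ x) + 2 * ε ^ 2 * (f x ^ 2 * ρ x) - K1 * ε ^ 3 * ρ x
        = (1 + 2 * (σ * ε) * f x + 2 * ε ^ 2 * f x ^ 2 - K1 * ε ^ 3) * ρ x := by ring
      _ ≤ _ := h5
  -- upper bound
  have upp : ∀ ε : ℝ, 0 < ε → ε ≤ ε0 →
      ∫ x, Real.exp (2 * ε ^ 2 * g x + K * ε ^ 3) * ρ x ∂μ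
        ≤ Z + 2 * ε ^ 2 * γ + (K + L ^ 2) * Z * ε ^ 3 := by
    intro ε he he0
    have he1 : ε ≤ 1 := he0.trans hε01
    have hLe : L * ε ≤ 1 := by
      have : ε * (1 + 2 * B + L) ≤ 1 := by
        rw [hε0, le_div_iff₀ (by positivity)] at he0
        exact he0
      nlinarith [mul_nonneg he.le hB0]
    have e : Z + 2 * ε ^ 2 * γ + (K + L ^ 2) * Z * ε ^ 3
        = ∫ x, (ρ x + 2 * ε ^ 2 * (g x * ρ x) + (K + L ^ 2) * ε ^ 3 * ρ x) ∂μ := by
      have i2 := ig.const_mul (2 * ε ^ 2)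
      have i4 := hρi.const_mul ((K + L ^ 2) * ε ^ 3)
      have i12 : Integrable (fun x => ρ x + 2 * ε ^ 2 * (g x * ρ x)) μ := hρi.add i2
      rw [integral_add i12 i4, integral_add hρi i2, integral_const_mul, integral_const_mul]
      ring
    rw [e]
    have i2 := ig.const_mul (2 * ε ^ 2)
    have i4 := hρi.const_mul ((K + L ^ 2) * ε ^ 3)
    have iR : Integrable (fun x => ρ x + 2 * ε ^ 2 * (g x * ρ x)
        + (K + L ^ 2) * ε ^ 3 * ρ x) μ := (hρi.add i2).add i4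
    have hb : ∀ x, |2 * ε ^ 2 * g x + K * ε ^ 3| ≤ L * ε ^ 2 := fun x => by
      have h1 := hG x
      have h2 : |2 * ε ^ 2 * g x + K * ε ^ 3| ≤ 2 * ε ^ 2 * |g x| + K * ε ^ 3 := by
        refine (abs_add_le _ _).trans ?_
        rw [abs_mul, abs_of_pos (by positivity : (0 : ℝ) < 2 * ε ^ 2),
          abs_of_nonneg (by positivity : (0 : ℝ) ≤ K * ε ^ 3)]
      have h3 : K * ε ^ 3 ≤ K * ε ^ 2 :=
        mul_le_mul_of_nonneg_left (pow_le_pow_of_le_one he.le he1 (by norm_num)) hK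
      have h4 : 2 * ε ^ 2 * |g x| ≤ 2 * ε ^ 2 * G := mul_le_mul_of_nonneg_left h1 (by positivity)
      rw [hL]
      linarith
    have iLf : Integrable (fun x => Real.exp (2 * ε ^ 2 * g x + K * ε ^ 3) * ρ x) μ :=
      iexp (D := L * ε ^ 2) ((hg.const_mul (2 * ε ^ 2)).add aestronglyMeasurable_const) hb
    refine integral_mono iLf iR fun x => ?_
    have hb1 : L * ε ^ 2 ≤ 1 := by nlinarith [mul_nonneg hL0 he.le]
    have h2 := exp_upp (s := 2 * ε ^ 2 * g x + K * ε ^ 3) ((hb x).trans hb1)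
    have h3 : (2 * ε ^ 2 * g x + K * ε ^ 3) ^ 2 ≤ L ^ 2 * ε ^ 3 := by
      have h4 : (2 * ε ^ 2 * g x + K * ε ^ 3) ^ 2 ≤ (L * ε ^ 2) ^ 2 := sq_le_sq' (by
        linarith [(abs_le.1 (hb x)).1]) (abs_le.1 (hb x)).2
      have h5 : (L * ε ^ 2) ^ 2 = L ^ 2 * ε ^ 4 := by ring
      have h6 : ε ^ 4 ≤ ε ^ 3 := pow_le_pow_of_le_one he.le he1 (by norm_num)
      rw [h5] at h4
      exact h4.trans (mul_le_mul_of_nonneg_left h6 (sq_nonneg _))
    have h4 : Real.exp (2 * ε ^ 2 * g x + K * ε ^ 3)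
        ≤ 1 + 2 * ε ^ 2 * g x + (K + L ^ 2) * ε ^ 3 := by linarith
    have h5 := mul_le_mul_of_nonneg_right h4 (hρ x)
    simp only
    calc _ ≤ (1 + 2 * ε ^ 2 * g x + (K + L ^ 2) * ε ^ 3) * ρ x := h5
      _ = _ := by ring
  -- combine
  set P : ℝ → ℝ := fun ε => (Z + 2 * ε ^ 2 * γ + (K + L ^ 2) * Z * ε ^ 3) ^ 2
    - ((Z + 2 * ε ^ 2 * b - K1 * Z * ε ^ 3) ^ 2 - (2 * ε * a) ^ 2) with hP
  set R : ℝ → ℝ := fun ε => γ * Z - b * Z + a ^ 2
    + ε * ((K + L ^ 2) * Z * Z / 2 + ε * γ ^ 2 + ε ^ 2 * γ * (K + L ^ 2) * Z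
        + ε ^ 3 * ((K + L ^ 2) * Z) ^ 2 / 4
      + K1 * Z * Z / 2 - ε * b ^ 2 + ε ^ 2 * b * K1 * Z - ε ^ 3 * (K1 * Z) ^ 2 / 4) with hR
  have hPR : ∀ ε, P ε = 4 * ε ^ 2 * R ε := fun ε => by
    simp only [hP, hR]
    ring
  have hRc : Continuous R := by
    simp only [hR]
    fun_prop
  have hpos : ∀ᶠ ε in 𝓝[>] (0 : ℝ), 0 ≤ R ε := by
    have hA : ∀ᶠ ε in 𝓝[>] (0 : ℝ), 0 < Z + 2 * ε * a + 2 * ε ^ 2 * b - K1 * Z * ε ^ 3 := by
      have hc : Continuous fun ε : ℝ => Z + 2 * ε * a + 2 * ε ^ 2 * b - K1 * Z * ε ^ 3 := by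
        fun_prop
      have := (hc.tendsto 0).mono_left (nhdsWithin_le_nhds (s := Set.Ioi (0 : ℝ)))
      refine this.eventually (lt_mem_nhds ?_)
      simpa using hZ
    have hA' : ∀ᶠ ε in 𝓝[>] (0 : ℝ), 0 < Z - 2 * ε * a + 2 * ε ^ 2 * b - K1 * Z * ε ^ 3 := by
      have hc : Continuous fun ε : ℝ => Z - 2 * ε * a + 2 * ε ^ 2 * b - K1 * Z * ε ^ 3 := by
        fun_prop
      have := (hc.tendsto 0).mono_left (nhdsWithin_le_nhds (s := Set.Ioi (0 : ℝ)))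
      refine this.eventually (lt_mem_nhds ?_)
      simpa using hZ
    have hlt : ∀ᶠ ε in 𝓝[>] (0 : ℝ), ε < ε0 :=
      (nhdsWithin_le_nhds (s := Set.Ioi (0 : ℝ))) (Iio_mem_nhds hε0p)
    filter_upwards [hA, hA', hlt, self_mem_nhdsWithin] with ε h1 h2 h3 h4
    have he : 0 < ε := h4
    have l1 := low ε he h3.le 1 (by norm_num)
    have l2 := low ε he h3.le (-1) (by norm_num)
    have u1 := upp ε he h3.le
    have pl := hPL ε he (h3.le.trans hε01)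
    simp only [one_mul, neg_mul] at l1 l2
    have m1 : (Z + 2 * ε * a + 2 * ε ^ 2 * b - K1 * Z * ε ^ 3)
        * (Z - 2 * ε * a + 2 * ε ^ 2 * b - K1 * Z * ε ^ 3)
        ≤ (∫ x, Real.exp (2 * ε * f x) * ρ x ∂μ) * (∫ x, Real.exp (-(2 * ε * f x)) * ρ x ∂μ) := by
      refine mul_le_mul (by linarith) (by linarith) h2.le ?_
      exact integral_nonneg fun x => mul_nonneg (Real.exp_pos _).le (hρ x)
    have hw0 : 0 ≤ ∫ x, Real.exp (2 * ε ^ 2 * g x + K * ε ^ 3) * ρ x ∂μ :=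
      integral_nonneg fun x => mul_nonneg (Real.exp_pos _).le (hρ x)
    have m2 : (∫ x, Real.exp (2 * ε ^ 2 * g x + K * ε ^ 3) * ρ x ∂μ) ^ 2
        ≤ (Z + 2 * ε ^ 2 * γ + (K + L ^ 2) * Z * ε ^ 3) ^ 2 := pow_le_pow_left₀ hw0 u1 2
    have m3 : 0 ≤ P ε := by
      simp only [hP]
      have e1 : (Z + 2 * ε * a + 2 * ε ^ 2 * b - K1 * Z * ε ^ 3)
        * (Z - 2 * ε * a + 2 * ε ^ 2 * b - K1 * Z * ε ^ 3)
        = (Z + 2 * ε ^ 2 * b - K1 * Z * ε ^ 3) ^ 2 - (2 * ε * a) ^ 2 := by ring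
      rw [e1] at m1
      linarith
    rw [hPR] at m3
    have h5 : 0 < 4 * ε ^ 2 := by positivity
    exact nonneg_of_mul_nonneg_right m3 h5
  have hlim : Tendsto R (𝓝[>] 0) (𝓝 (R 0)) :=
    (hRc.tendsto 0).mono_left nhdsWithin_le_nhds
  have hR0 : 0 ≤ R 0 := ge_of_tendsto hlim hpos
  simp only [hR] at hR0
  simp only [zero_mul, add_zero] at hR0
  linarith

end Vale.Agent.P254.S2.G711
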