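import Vale.Agent.P254.S2.GapFin467
import Vale.Agent.P254.S2.Bochc

/-! # P254/S2/Hyp365: `StmtIbpc`, `StmtBochc` (helper365); hence `StmtESAc → StmtBL`. -/

open MeasureTheory
open Vale.Agent.P227.M

namespace Vale.Agent.P254.S2

theorem stmtIbpc : G467.StmtIbpc := fun _ _ _ _ _ _ _ _ hV h _ _ hf hg => AEc.ibp_lip hV h hf hg

theorem stmtBochc : G467.StmtBochc := fun _ _ _ _ _ _ _ _ hV h _ hf => boch hV h hf

theorem stmtBL_of_esa (hE : G467.StmtESAc) : StmtBL := G467.stmtBL_of stmtIbpc hE stmtBochc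

end Vale.Agent.P254.S2
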