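import Vale.Agent.P254.S2.Ifc
import Vale.Agent.P254.S2.Sym
import Vale.Agent.P227.M.ID.LipMoll

/-! # P254/S2: from smooth functions to the entries of `τ` (mollification) (helper711) -/

open MeasureTheory Filter
open scoped Topology NNReal Convolution ContDiff

namespace Vale.Agent.P254.S2.G711

open Vale.Agent.P227.M Vale.Agent.P227.M.LipMoll

/-- the gap inequality for bounded `C^{1,1}` functions with bounded gradient -/
def StmtGapC11 : Prop := ∀ (n : ℕ) (ψ V : E n → ℝ) (c C M c1 C1 : ℝ), Reg V c1 C1 →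
  MC.MMc ψ V c C M → ∀ (F : E n → ℝ) (B G K : ℝ), ContDiff ℝ ∞ F → (∀ x, |F x| ≤ B) →
    (∀ x, ‖fderiv ℝ F x‖ ≤ G) → (∀ x y, ‖fderiv ℝ F x - fderiv ℝ F y‖ ≤ K * ‖x - y‖) →
    Ex V (fun x => F x ^ 2) - (Ex V F) ^ 2 ≤ Ex V (gam ψ F)

section mol

variable {E' G' : Type*} [NormedAddCommGroup E'] [NormedSpace ℝ E'] [FiniteDimensional ℝ E']
  [NormedAddCommGroup G'] [NormedSpace ℝ G'] [FiniteDimensional ℝ G']
  [MeasurableSpace E'] [BorelSpace E'] (μ : Measure E') [μ.IsAddHaarMeasure]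

/-- mollifications of bounded functions are Lipschitz -/
theorem mol_lip_of_bdd (k : ℕ) {w : E' → G'} (hw : LocallyIntegrable w μ) {C : ℝ}
    (hC : ∀ x, ‖w x‖ ≤ C) : ∃ D : ℝ, ∀ x y, ‖mol μ k w x - mol μ k w y‖ ≤ D * ‖x - y‖ := by
  set η : E' → ℝ := (bp E' k).normed μ with hη
  have hs : HasCompactSupport η := (bp E' k).hasCompactSupport_normed
  have hc : ContDiff ℝ 1 η := (bp E' k).contDiff_normed
  set L : ℝ →L[ℝ] G' →L[ℝ] G' := ContinuousLinearMap.lsmul ℝ ℝ with hL
  have hd : ∀ x, HasFDerivAt (mol μ k w) ((fderiv ℝ η ⋆[L.precompL E', μ] w) x) x := fun x =>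
    hs.hasFDerivAt_convolution_left L hc hw x
  have hfi : Integrable (fderiv ℝ η) μ :=
    (hc.continuous_fderiv (by norm_num)).integrable_of_hasCompactSupport (hs.fderiv ℝ)
  have hfn : Integrable (fun t => ‖fderiv ℝ η t‖ * C) μ := (hfi.norm).mul_const C
  refine ⟨∫ t, ‖fderiv ℝ η t‖ * C ∂μ, fun x y => ?_⟩
  have h := (convex_univ : Convex ℝ (Set.univ : Set E')).norm_image_sub_le_of_norm_hasFDerivWithin_le
    (f := mol μ k w) (C := ∫ t, ‖fderiv ℝ η t‖ * C ∂μ) (x := y) (y := x)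
    (fun z _ => (hd z).hasFDerivWithinAt) (fun z _ => ?_) (Set.mem_univ _) (Set.mem_univ _)
  · exact h
  · unfold convolution
    refine norm_integral_le_of_norm_le hfn (Eventually.of_forall fun t => ?_)
    refine ContinuousLinearMap.opNorm_le_bound _
      (mul_nonneg (norm_nonneg _) ((norm_nonneg _).trans (hC z))) fun v => ?_
    have e : (L.precompL E' (fderiv ℝ η t)) (w (z - t)) v = (fderiv ℝ η t v) • w (z - t) := by
      rw [ContinuousLinearMap.precompL_apply]
      rfl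
    rw [e, norm_smul]
    have h1 := (fderiv ℝ η t).le_opNorm v
    calc ‖fderiv ℝ η t v‖ * ‖w (z - t)‖ ≤ (‖fderiv ℝ η t‖ * ‖v‖) * C :=
          mul_le_mul h1 (hC _) (norm_nonneg _) (by positivity)
      _ = _ := by ring

end mol

variable {n : ℕ} {ψ V : E n → ℝ} {c C M c1 C1 : ℝ}

theorem tendsto_Ex (hV : Reg V c1 C1) {f : ℕ → E n → ℝ} {g : E n → ℝ} {D : ℝ}
    (hm : ∀ k, AEStronglyMeasurable (f k)) (hD : ∀ k x, |f k x| ≤ D)
    (hl : ∀ᵐ x, Tendsto (fun k => f k x) atTop (𝓝 (g x))) :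
    Tendsto (fun k => Ex V (f k)) atTop (𝓝 (Ex V g)) := by
  unfold Ex
  refine Tendsto.div_const ?_ _
  refine tendsto_integral_of_dominated_convergence (fun x => D * Real.exp (-V x)) (fun k => ?_)
    (hV.integrable_exp.const_mul D) (fun k => Eventually.of_forall fun x => ?_) ?_
  · exact (hm k).mul (Real.continuous_exp.comp hV.cont.neg).aestronglyMeasurable
  · rw [norm_mul, Real.norm_eq_abs, Real.norm_eq_abs, Real.abs_exp]
    exact mul_le_mul_of_nonneg_right (hD k x) (Real.exp_pos _).le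
  · filter_upwards [hl] with x hx
    exact hx.mul_const _

theorem stmtBL_of_gap (hgap : StmtGapC11) : StmtBL := by
  intro n ψ V c C M c1 C1 hV h i j
  set F : E n → ℝ := fun x => tau ψ x i j with hF
  set K : ℝ≥0 := Real.toNNReal (n * (n * (c⁻¹ * M * c⁻¹))) with hK
  have hFL : LipschitzWith K F := tau_lipW h i j
  have hFB : ∀ x, ‖F x‖ ≤ c⁻¹ := fun x => abs_tau_le h x i j
  set Fk : ℕ → E n → ℝ := fun k => mol volume k F with hFk
  have hloc : LocallyIntegrable F (volume : Measure (E n)) := hFL.continuous.locallyIntegrable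
  have s1 : ∀ k, ContDiff ℝ ∞ (Fk k) := fun k => contDiff_mol volume k hloc
  have s2 : ∀ k x, |Fk k x| ≤ c⁻¹ := fun k x => norm_mol_le volume k hFB x
  have s3 : ∀ k x, ‖fderiv ℝ (Fk k) x‖ ≤ K := fun k x => norm_fderiv_mol_le volume k hFL x
  have s4 : ∀ k, ∃ D : ℝ, ∀ x y, ‖fderiv ℝ (Fk k) x - fderiv ℝ (Fk k) y‖ ≤ D * ‖x - y‖ := by
    intro k
    obtain ⟨D, hD⟩ := mol_lip_of_bdd volume k (locallyIntegrable_fderiv volume hFL) (C := K)
      fun x => norm_fderiv_le_of_lipschitz ℝ hFL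
    refine ⟨D, fun x y => ?_⟩
    rw [fderiv_mol volume k hFL, fderiv_mol volume k hFL]
    exact hD x y
  have key : ∀ k, Ex V (fun x => Fk k x ^ 2) - (Ex V (Fk k)) ^ 2 ≤ Ex V (gam ψ (Fk k)) := by
    intro k
    obtain ⟨D, hD⟩ := s4 k
    exact hgap n ψ V c C M c1 C1 hV h (Fk k) c⁻¹ K D (s1 k) (s2 k) (s3 k) hD
  have l0 : ∀ x, Tendsto (fun k => Fk k x) atTop (𝓝 (F x)) := fun x =>
    tendsto_mol volume hFL.continuous x
  have l1 : Tendsto (fun k => Ex V (fun x => Fk k x ^ 2)) atTop (𝓝 (Ex V (fun x => F x ^ 2))) := by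
    refine tendsto_Ex hV (D := c⁻¹ ^ 2) (fun k => ((s1 k).continuous.pow 2).aestronglyMeasurable)
      (fun k x => ?_) (Eventually.of_forall fun x => (l0 x).pow 2)
    rw [abs_pow]
    exact pow_le_pow_left₀ (abs_nonneg _) (s2 k x) 2
  have l2 : Tendsto (fun k => Ex V (Fk k)) atTop (𝓝 (Ex V F)) :=
    tendsto_Ex hV (fun k => (s1 k).continuous.aestronglyMeasurable) s2 (Eventually.of_forall l0)
  have s5 : ∀ k x l, |pd l (Fk k) x| ≤ K := fun k x l => (abs_pd_le_norm _ _ _).trans (s3 k x)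
  have l3 : Tendsto (fun k => Ex V (gam ψ (Fk k))) atTop (𝓝 (Ex V (gam ψ F))) := by
    refine tendsto_Ex hV (D := n * (n * (c⁻¹ * K * K))) (fun k => ?_) (fun k x => ?_) ?_
    · have hc : Continuous (gam ψ (Fk k)) := by
        unfold gam
        refine continuous_finsetSum _ fun a _ => continuous_finsetSum _ fun b _ => ?_
        have hpd : ∀ l, Continuous (pd l (Fk k)) := fun l => (contDiff_pd_top (s1 k) l).continuous
        exact ((S2.continuous_tau h a b).mul (hpd a)).mul (hpd b)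
      exact hc.aestronglyMeasurable
    · have hc0 : 0 ≤ c⁻¹ := inv_nonneg.2 h.c_pos.le
      unfold gam
      calc |∑ a, ∑ b, tau ψ x a b * pd a (Fk k) x * pd b (Fk k) x|
          ≤ ∑ a : Fin n, ∑ b : Fin n, c⁻¹ * K * K := by
            refine (Finset.abs_sum_le_sum_abs _ _).trans (Finset.sum_le_sum fun a _ => ?_)
            refine (Finset.abs_sum_le_sum_abs _ _).trans (Finset.sum_le_sum fun b _ => ?_)
            rw [abs_mul, abs_mul]
            refine mul_le_mul (mul_le_mul (abs_tau_le h x a b) (s5 k x a) (abs_nonneg _) hc0)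
              (s5 k x b) (abs_nonneg _) (mul_nonneg hc0 K.2)
        _ = n * (n * (c⁻¹ * K * K)) := by
            simp only [Finset.sum_const, Finset.card_univ, Fintype.card_fin, nsmul_eq_mul]
    · filter_upwards [ae_tendsto_fderiv_mol volume hFL] with x hx
      have hp : ∀ l, Tendsto (fun k => pd l (Fk k) x) atTop (𝓝 (pd l F x)) := fun l =>
        ((ContinuousLinearMap.apply ℝ ℝ (ei l : E n)).continuous.tendsto _).comp hx
      unfold gam
      exact tendsto_finsetSum _ fun a _ => tendsto_finsetSum _ fun b _ =>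
        ((hp a).const_mul _).mul (hp b)
  exact le_of_tendsto_of_tendsto' (l1.sub (l2.pow 2)) l3 key

end Vale.Agent.P254.S2.G711
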