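import Vale.Agent.P254.S2.N1A

/-! # P254/S2 (helper232): the static identity, cut-off removed -/

open MeasureTheory Filter Topology Set Metric
open scoped NNReal ENNReal ContDiff
open Vale.Agent.P227.M Vale.Agent.P227.M.K814

namespace Vale.Agent.P254.SN

variable {n : ℕ} {V : E n → ℝ} {t : E n → Matrix (Fin n) (Fin n) ℝ}

/-! ## globally bounded measurable functions -/

/-- measurable and bounded -/
def GB (f : E n → ℝ) : Prop := Measurable f ∧ ∃ C, ∀ x, |f x| ≤ C

theorem GB.const (c : ℝ) : GB (fun _ : E n => c) := ⟨measurable_const, |c|, fun _ => le_rfl⟩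

theorem GB.mul {f g : E n → ℝ} (hf : GB f) (hg : GB g) : GB (fun x => f x * g x) := by
  obtain ⟨h1, C, hC⟩ := hf
  obtain ⟨h2, D, hD⟩ := hg
  refine ⟨h1.mul h2, |C| * |D|, fun x => ?_⟩
  rw [abs_mul]
  exact mul_le_mul ((hC x).trans (le_abs_self _)) ((hD x).trans (le_abs_self _))
    (abs_nonneg _) (abs_nonneg _)

theorem GB.add {f g : E n → ℝ} (hf : GB f) (hg : GB g) : GB (fun x => f x + g x) := by
  obtain ⟨h1, C, hC⟩ := hf
  obtain ⟨h2, D, hD⟩ := hg
  exact ⟨h1.add h2, C + D, fun x => (abs_add_le _ _).trans (add_le_add (hC x) (hD x))⟩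

theorem GB.neg {f : E n → ℝ} (hf : GB f) : GB (fun x => - f x) := by
  obtain ⟨h1, C, hC⟩ := hf
  exact ⟨h1.neg, C, fun x => by rw [abs_neg]; exact hC x⟩

theorem GB.sub {f g : E n → ℝ} (hf : GB f) (hg : GB g) : GB (fun x => f x - g x) := by
  simpa [sub_eq_add_neg] using hf.add hg.neg

theorem GB.sum {ι : Type*} (s : Finset ι) {f : ι → E n → ℝ} (hf : ∀ i ∈ s, GB (f i)) :
    GB (fun x => ∑ i ∈ s, f i x) := by
  classical
  induction s using Finset.induction_on with
  | empty => simpa using GB.const (n := n) 0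
  | insert a s ha ih =>
    simp only [Finset.sum_insert ha]
    exact GB.add (hf a (Finset.mem_insert_self _ _))
      (ih fun i hi => hf i (Finset.mem_insert_of_mem hi))

theorem GB.pd {f : E n → ℝ} {K : ℝ≥0} (hf : LipschitzWith K f) (i : Fin n) : GB (pd i f) := by
  refine ⟨measurable_fderiv_apply_const ℝ f _, K, fun x => ?_⟩
  have h1 : ‖fderiv ℝ f x‖ ≤ K := norm_fderiv_le_of_lipschitz ℝ hf
  have h2 := (fderiv ℝ f x).le_opNorm (ei i)
  rw [ei_norm, mul_one] at h2
  exact h2.trans h1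

theorem GB.int {f : E n → ℝ} (hf : GB f) (hV : Integrable (fun x => Real.exp (-V x))) :
    Integrable (fun x => f x * Real.exp (-V x)) := by
  obtain ⟨h1, C, hC⟩ := hf
  exact hV.bdd_mul (c := C) h1.aestronglyMeasurable (Eventually.of_forall hC)

/-! ## cut-offs -/

/-- the cut-offs -/
theorem cutoffs (n : ℕ) : ∃ (K : ℝ≥0) (χ : ℕ → E n → ℝ), (∀ k, LC (χ k)) ∧
    (∀ k x, 0 ≤ χ k x ∧ χ k x ≤ 1) ∧ (∀ x, Tendsto (fun k => χ k x) atTop (𝓝 1)) ∧
    (∀ k b x, |pd b (χ k) x| ≤ K * (1 / ((k : ℝ) + 1))) := by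
  let χ : ContDiffBump (0 : E n) := ⟨1, 2, by norm_num, by norm_num⟩
  have hLC : LC (χ : E n → ℝ) := ⟨ll_of_contDiff χ.contDiff, χ.hasCompactSupport⟩
  obtain ⟨K, hK⟩ := hLC.lip
  refine ⟨K, fun k x => χ ((1 / ((k : ℝ) + 1)) • x), fun k => ?_, fun k x => ⟨χ.nonneg, χ.le_one⟩,
    fun x => ?_, fun k b x => ?_⟩
  · have hpos : (0 : ℝ) < 1 / ((k : ℝ) + 1) := by positivity
    refine ⟨?_, ?_⟩
    · have h1 : LipschitzWith ‖(1 / ((k : ℝ) + 1))‖₊ (fun x : E n => (1 / ((k : ℝ) + 1)) • x) :=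
        lipschitzWith_smul _
      exact (hK.comp h1).locallyLipschitz
    · exact χ.hasCompactSupport.comp_smul hpos.ne'
  · have h1 : Tendsto (fun k : ℕ => (1 / ((k : ℝ) + 1)) • x) atTop (𝓝 ((0 : ℝ) • x)) :=
      tendsto_one_div_add_atTop_nhds_zero_nat.smul_const x
    rw [zero_smul] at h1
    have h2 : χ (0 : E n) = 1 := χ.one_of_mem_closedBall (mem_closedBall_self χ.rIn_pos.le)
    have h3 := (χ.continuous.tendsto 0).comp h1
    rw [h2] at h3
    exact h3
  · have h1 : LipschitzWith ‖(1 / ((k : ℝ) + 1))‖₊ (fun x : E n => (1 / ((k : ℝ) + 1)) • x) :=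
      lipschitzWith_smul _
    have h2 := hK.comp h1
    have h3 : ‖fderiv ℝ (fun x : E n => χ ((1 / ((k : ℝ) + 1)) • x)) x‖ ≤
        ((K * ‖(1 / ((k : ℝ) + 1))‖₊ : ℝ≥0) : ℝ) := norm_fderiv_le_of_lipschitz ℝ h2
    have h4 := (fderiv ℝ (fun x : E n => χ ((1 / ((k : ℝ) + 1)) • x)) x).le_opNorm (ei b)
    rw [ei_norm, mul_one] at h4
    have h5 : ((K * ‖(1 / ((k : ℝ) + 1))‖₊ : ℝ≥0) : ℝ) = K * (1 / ((k : ℝ) + 1)) := by
      rw [NNReal.coe_mul, coe_nnnorm, Real.norm_eq_abs, abs_of_pos (by positivity)]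
    rw [← h5]
    exact h4.trans h3

/-- removing a cut-off -/
theorem cut_limit (hV : Integrable (fun x => Real.exp (-V x))) {F : E n → ℝ} (hF : GB F)
    {g : Fin n → E n → ℝ} (hg : ∀ b, GB (g b))
    (h0 : ∀ χ : E n → ℝ, LC χ → I V (fun x => F x * χ x + ∑ b, g b x * pd b χ x) = 0) :
    I V F = 0 := by
  obtain ⟨K, χ, hLC, h01, hlim, hpd⟩ := cutoffs n
  obtain ⟨CF, hCF⟩ := hF.2
  choose G hG using fun b => (hg b).2
  have hGB1 : ∀ k, GB (fun x => F x * χ k x) := fun k =>
    hF.mul ⟨(hLC k).1.continuous.measurable, 1, fun x => by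
      rw [abs_of_nonneg (h01 k x).1]; exact (h01 k x).2⟩
  have hGBp : ∀ k b, GB (pd b (χ k)) := fun k b =>
    ⟨measurable_fderiv_apply_const ℝ _ _, _, fun x => hpd k b x⟩
  have hGB2 : ∀ k, GB (fun x => ∑ b, g b x * pd b (χ k) x) := fun k =>
    GB.sum _ fun b _ => (hg b).mul (hGBp k b)
  have e1 : ∀ k, ∫ x, F x * χ k x * Real.exp (-V x) =
      - ∫ x, (∑ b, g b x * pd b (χ k) x) * Real.exp (-V x) := by
    intro k
    have h1 : ∫ x, (F x * χ k x + ∑ b, g b x * pd b (χ k) x) * Real.exp (-V x) = 0 :=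
      h0 (χ k) (hLC k)
    have i1 : Integrable (fun x => F x * χ k x * Real.exp (-V x)) := (hGB1 k).int hV
    have i2 : Integrable (fun x => (∑ b, g b x * pd b (χ k) x) * Real.exp (-V x)) :=
      (hGB2 k).int hV
    have h3 : ∫ x, (F x * χ k x + ∑ b, g b x * pd b (χ k) x) * Real.exp (-V x) =
        ∫ x, (F x * χ k x * Real.exp (-V x) + (∑ b, g b x * pd b (χ k) x) * Real.exp (-V x)) := by
      congr 1; ext x; ring
    rw [h3, integral_add i1 i2] at h1
    linarith
  -- the right side tends to `0`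
  have r1 : ∀ k, |∫ x, (∑ b, g b x * pd b (χ k) x) * Real.exp (-V x)| ≤
      (∑ b, |G b| * K) * (∫ x, Real.exp (-V x)) * (1 / ((k : ℝ) + 1)) := by
    intro k
    have hb : ∀ x, ‖(∑ b, g b x * pd b (χ k) x) * Real.exp (-V x)‖ ≤
        ((∑ b, |G b| * K) * (1 / ((k : ℝ) + 1))) * Real.exp (-V x) := by
      intro x
      rw [norm_mul, Real.norm_eq_abs, Real.norm_eq_abs, abs_of_pos (Real.exp_pos _)]
      refine mul_le_mul_of_nonneg_right ?_ (Real.exp_pos _).le
      refine (Finset.abs_sum_le_sum_abs _ _).trans ?_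
      rw [Finset.sum_mul]
      refine Finset.sum_le_sum fun b _ => ?_
      rw [abs_mul, mul_assoc]
      exact mul_le_mul ((hG b x).trans (le_abs_self _)) (hpd k b x) (abs_nonneg _) (abs_nonneg _)
    have h1 := norm_integral_le_of_norm_le (hV.const_mul ((∑ b, |G b| * K) * (1 / ((k : ℝ) + 1))))
      (Eventually.of_forall hb)
    rw [integral_const_mul, Real.norm_eq_abs] at h1
    calc _ ≤ _ := h1
      _ = _ := by ring
  have r2 : Tendsto (fun k : ℕ => - ∫ x, (∑ b, g b x * pd b (χ k) x) * Real.exp (-V x)) atTop (𝓝 0) := by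
    have h1 : Tendsto (fun k : ℕ => (∑ b, |G b| * K) * (∫ x, Real.exp (-V x)) * (1 / ((k : ℝ) + 1)))
        atTop (𝓝 0) := by
      have := (tendsto_one_div_add_atTop_nhds_zero_nat (𝕜 := ℝ)).const_mul
        ((∑ b, |G b| * K) * (∫ x, Real.exp (-V x)))
      rwa [mul_zero] at this
    refine squeeze_zero_norm (fun k => ?_) h1
    rw [norm_neg, Real.norm_eq_abs]
    exact r1 k
  have l1 : Tendsto (fun k : ℕ => ∫ x, F x * χ k x * Real.exp (-V x)) atTop
      (𝓝 (∫ x, F x * Real.exp (-V x))) := by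
    refine tendsto_integral_of_dominated_convergence (fun x => |CF| * Real.exp (-V x))
      (fun k => ((hGB1 k).int hV).aestronglyMeasurable) (hV.const_mul _)
      (fun k => Eventually.of_forall fun x => ?_) (Eventually.of_forall fun x => ?_)
    · rw [norm_mul, norm_mul, Real.norm_eq_abs, Real.norm_eq_abs, Real.norm_eq_abs,
        abs_of_pos (Real.exp_pos _), abs_of_nonneg (h01 k x).1]
      refine mul_le_mul_of_nonneg_right ?_ (Real.exp_pos _).le
      calc |F x| * χ k x ≤ |F x| * 1 := mul_le_mul_of_nonneg_left (h01 k x).2 (abs_nonneg _)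
        _ ≤ |CF| := by rw [mul_one]; exact (hCF x).trans (le_abs_self _)
    · have := ((hlim x).const_mul (F x)).mul_const (Real.exp (-V x))
      simpa using this
  have l2 : Tendsto (fun k : ℕ => ∫ x, F x * χ k x * Real.exp (-V x)) atTop (𝓝 0) := by
    simp only [e1]
    exact r2
  exact tendsto_nhds_unique l1 l2

theorem sum_comb (f1 f2 f3 f4 f5 : Fin n → Fin n → ℝ) (c : ℝ) :
    ((∑ a, ∑ i, f1 a i) + (∑ a, ∑ i, f2 a i) + (∑ a, ∑ i, f3 a i) - (∑ a, ∑ i, f4 a i)) * c
      + ∑ a, ∑ i, f5 a i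
      = ∑ a, ∑ i, ((f1 a i + f2 a i + f3 a i - f4 a i) * c + f5 a i) := by
  simp only [add_mul, sub_mul, Finset.sum_add_distrib, Finset.sum_sub_distrib, Finset.sum_mul]

/-- bounds -/
structure TB (V : E n → ℝ) (t : E n → Matrix (Fin n) (Fin n) ℝ) : Prop extends TF V t where
  bt : ∃ C, ∀ x i j, |t x i j| ≤ C
  bV : ∃ C, ∀ x i j, |pd i (pd j V) x| ≤ C
  int : Integrable (fun x => Real.exp (-V x))

section
variable (h : TB V t)
include h

theorem gb_t (i j : Fin n) : GB (fun x => t x i j) := by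
  obtain ⟨C, hC⟩ := h.bt
  exact ⟨(tll h.toTF i j).continuous.measurable, C, fun x => hC x i j⟩

theorem gb_pt (k i j : Fin n) : GB (pd k (fun x => t x i j)) := by
  obtain ⟨K, hK⟩ := h.lip i j
  exact GB.pd hK k

theorem gb_V (i j : Fin n) : GB (pd i (pd j V)) := by
  obtain ⟨C, hC⟩ := h.bV
  have hVa : ContDiff ℝ 1 (pd j V) := FlatB.contDiff_pd h.V2 j
  exact ⟨measurable_fderiv_apply_const ℝ _ _, C, fun x => hC x i j⟩

theorem gb_Dt (b i j : Fin n) : GB (Dt t b (fun y => t y i j)) :=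
  GB.sum _ fun k _ => (gb_t h b k).mul (gb_pt h k i j)

/-- **the static identity** -/
theorem stat_id (w : Fin n → ℝ) :
    I V (fun x => (∑ a, ∑ i, w a * w i * t x a i * (∑ b, ∑ e, t x i e * pd e (pd b V) x * t x a b))
      + (∑ a, ∑ i, w a * w i * (∑ b, Dt t b (fun y => t y i a) x * pd b (fun y => t y a i) x))
      + (∑ a, ∑ i, w a * w i * t x a i *
          (∑ b, ∑ e, pd b (fun y => t y i e) x * pd e (fun y => t y a b) x))
      - (∑ a, ∑ i, w a * w i * (t x i a * t x a i))) = 0 := by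
  have hV1 : ContDiff ℝ 1 V := h.V2.of_le (by norm_num)
  have hVc := hV1.continuous
  refine cut_limit h.int (g := fun b x => ∑ a, ∑ i, w a * w i * t x a i *
    Dt t b (fun y => t y i a) x) ?_ ?_ ?_
  · refine GB.sub (GB.add (GB.add ?_ ?_) ?_) ?_
    · exact GB.sum _ fun a _ => GB.sum _ fun i _ => ((GB.const _).mul (gb_t h a i)).mul
        (GB.sum _ fun b _ => GB.sum _ fun e _ => ((gb_t h i e).mul (gb_V h e b)).mul (gb_t h a b))
    · exact GB.sum _ fun a _ => GB.sum _ fun i _ => (GB.const _).mul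
        (GB.sum _ fun b _ => (gb_Dt h b i a).mul (gb_pt h b a i))
    · exact GB.sum _ fun a _ => GB.sum _ fun i _ => ((GB.const _).mul (gb_t h a i)).mul
        (GB.sum _ fun b _ => GB.sum _ fun e _ => (gb_pt h b i e).mul (gb_pt h e a b))
    · exact GB.sum _ fun a _ => GB.sum _ fun i _ => (GB.const _).mul ((gb_t h i a).mul (gb_t h a i))
  · exact fun b => GB.sum _ fun a _ => GB.sum _ fun i _ => ((GB.const _).mul (gb_t h a i)).mul
      (gb_Dt h b i a)
  · intro χ hχ
    have hQ : ∀ a i, LC (fun x => w a * w i * t x a i * χ x) := fun a i =>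
      LC.mul_left (ll_mul (ll_const _) (tll h.toTF a i)) hχ
    have hs := fun a i => stat_pair h.toTF (hQ a i) a i
    have hCI : ∀ a i, CI (fun x => (∑ b, ∑ e, t x i e * pd e (pd b V) x * t x a b) *
        (w a * w i * t x a i * χ x)
      + (∑ b, Dt t b (fun y => t y i a) x * pd b (fun x => w a * w i * t x a i * χ x) x)
      + (∑ b, ∑ e, pd b (fun y => t y i e) x * pd e (fun y => t y a b) x) *
        (w a * w i * t x a i * χ x)
      - t x i a * (w a * w i * t x a i * χ x)) := by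
      intro a i
      have bt : ∀ p q, Bd (fun x => t x p q) := fun p q => Bd.of_ll (tll h.toTF p q)
      have bp : ∀ k p q, Bd (pd k (fun x => t x p q)) := fun k p q => Bd.pd (tll h.toTF p q) k
      have bV : ∀ p q, Bd (pd p (pd q V)) := fun p q =>
        Bd.pd (ll_of_contDiff (FlatB.contDiff_pd h.V2 q)) p
      refine CI.sub (CI.add (CI.add ?_ ?_) ?_) ?_
      · exact CI.mul_left (Bd.sum _ fun b _ => Bd.sum _ fun e _ =>
          ((bt i e).mul (bV e b)).mul (bt a b)) (CI.of_lc (hQ a i))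
      · exact CI.sum _ fun b _ => CI.mul_left (bd_Dt h.toTF (tll h.toTF i a) b) (CI.pd (hQ a i) b)
      · exact CI.mul_left (Bd.sum _ fun b _ => Bd.sum _ fun e _ =>
          (bp b i e).mul (bp e a b)) (CI.of_lc (hQ a i))
      · exact CI.mul_left (bt i a) (CI.of_lc (hQ a i))
    have hsum : I V (fun x => ∑ a, ∑ i, ((∑ b, ∑ e, t x i e * pd e (pd b V) x * t x a b) *
        (w a * w i * t x a i * χ x)
      + (∑ b, Dt t b (fun y => t y i a) x * pd b (fun x => w a * w i * t x a i * χ x) x)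
      + (∑ b, ∑ e, pd b (fun y => t y i e) x * pd e (fun y => t y a b) x) *
        (w a * w i * t x a i * χ x)
      - t x i a * (w a * w i * t x a i * χ x))) = 0 := by
      rw [I_sum _ hVc fun a _ => CI.sum _ fun i _ => hCI a i]
      refine Finset.sum_eq_zero fun a _ => ?_
      rw [I_sum _ hVc fun i _ => hCI a i]
      exact Finset.sum_eq_zero fun i _ => hs a i
    rw [← hsum]
    refine I_congr ?_
    filter_upwards [hχ.ae_diff, tae h.toTF] with x hx hgx
    have e1 : ∀ a i b, pd b (fun x => w a * w i * t x a i * χ x) x =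
        w a * w i * (pd b (fun y => t y a i) x * χ x + t x a i * pd b χ x) := by
      intro a i b
      have d1 : DifferentiableAt ℝ (fun y => w a * w i * t y a i) x := (hgx a i).const_mul _
      rw [Vale.Agent.P227.M.rpd_mul d1 hx,
        Vale.Agent.P227.M.rpd_mul (differentiableAt_const _) (hgx a i), rpd_const]
      ring
    simp only [e1]
    have e2 : ∑ b, (∑ a, ∑ i, w a * w i * t x a i * Dt t b (fun y => t y i a) x) * pd b χ x =
        ∑ a, ∑ i, ∑ b, w a * w i * t x a i * Dt t b (fun y => t y i a) x * pd b χ x := by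
      simp only [Finset.sum_mul]
      rw [Finset.sum_comm]
      refine Finset.sum_congr rfl fun a _ => ?_
      rw [Finset.sum_comm]
    rw [e2]
    refine (sum_comb _ _ _ _ _ _).trans ?_
    refine Finset.sum_congr rfl fun a _ => Finset.sum_congr rfl fun i _ => ?_
    have e3 : ∑ b, Dt t b (fun y => t y i a) x * (w a * w i * (pd b (fun y => t y a i) x * χ x
        + t x a i * pd b χ x)) =
        (∑ b, w a * w i * t x a i * Dt t b (fun y => t y i a) x * pd b χ x)
        + w a * w i * (∑ b, Dt t b (fun y => t y i a) x * pd b (fun y => t y a i) x) * χ x := by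
      rw [Finset.mul_sum, Finset.sum_mul, ← Finset.sum_add_distrib]
      exact Finset.sum_congr rfl fun b _ => by ring
    rw [e3]
    ring

end

end Vale.Agent.P254.SN
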