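import Mathlib

/-!
P254, block S2, pointwise algebra for the moment map of a log-concave measure.
-/

open Matrix

namespace Vale.Agent.P254.S2

variable {n : ℕ}

open scoped MatrixOrder in
theorem pw_fact {A : Matrix (Fin n) (Fin n) ℝ} (hA : A.PosSemidef) :
    ∃ S : Matrix (Fin n) (Fin n) ℝ, A = Sᵀ * S := by
  obtain ⟨S, hS⟩ := CStarAlgebra.nonneg_iff_eq_star_mul_self.mp hA.nonneg
  exact ⟨S, by rw [hS, Matrix.star_eq_conjTranspose, Matrix.conjTranspose_eq_transpose_of_trivial]⟩

/-- trace of a product of positive semidefinite matrices -/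
theorem pw_tr_nonneg {A B : Matrix (Fin n) (Fin n) ℝ} (hA : A.PosSemidef) (hB : B.PosSemidef) :
    0 ≤ (A * B).trace := by
  obtain ⟨S, hS⟩ := pw_fact hA
  rw [hS, Matrix.mul_assoc, Matrix.trace_mul_comm, ← Matrix.conjTranspose_eq_transpose_of_trivial]
  exact (hB.mul_mul_conjTranspose_same S).trace_nonneg

/-- the form `Σ G_cc' tr (G D_c G D_c'ᵀ)` is nonnegative -/
theorem pw_psd3 {G : Matrix (Fin n) (Fin n) ℝ} (hG : G.PosSemidef)
    (D : Fin n → Matrix (Fin n) (Fin n) ℝ) :
    0 ≤ ∑ c, ∑ d, G c d * (G * D c * (G * (D d)ᵀ)).trace := by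
  obtain ⟨S, hS'⟩ := pw_fact hG
  have h1 : ∀ c d, (G * D c * (G * (D d)ᵀ)).trace =
      ∑ p, ∑ q, (S * D c * Sᵀ) p q * (S * D d * Sᵀ) p q := by
    intro c d
    have e : (G * D c * (G * (D d)ᵀ)).trace = ((S * D c * Sᵀ) * (S * D d * Sᵀ)ᵀ).trace := by
      rw [hS', Matrix.transpose_mul, Matrix.transpose_mul, Matrix.transpose_transpose]
      rw [show Sᵀ * S * D c * (Sᵀ * S * (D d)ᵀ) = Sᵀ * (S * D c * Sᵀ * (S * (D d)ᵀ)) by
        simp only [Matrix.mul_assoc]]
      rw [Matrix.trace_mul_comm]
      simp only [Matrix.mul_assoc]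
    rw [e, Matrix.trace]
    refine Finset.sum_congr rfl fun p _ => ?_
    rw [Matrix.diag_apply, Matrix.mul_apply]
    refine Finset.sum_congr rfl fun q _ => ?_
    rw [Matrix.transpose_apply]
  have h2 : ∑ c, ∑ d, G c d * (G * D c * (G * (D d)ᵀ)).trace =
      ∑ p, ∑ q, ∑ c, ∑ d, (S * D c * Sᵀ) p q * (G c d * (S * D d * Sᵀ) p q) := by
    calc ∑ c, ∑ d, G c d * (G * D c * (G * (D d)ᵀ)).trace
        = ∑ c, ∑ d, ∑ p, ∑ q, (S * D c * Sᵀ) p q * (G c d * (S * D d * Sᵀ) p q) := by
          refine Finset.sum_congr rfl fun c _ => Finset.sum_congr rfl fun d _ => ?_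
          rw [h1, Finset.mul_sum]
          refine Finset.sum_congr rfl fun p _ => ?_
          rw [Finset.mul_sum]
          refine Finset.sum_congr rfl fun q _ => by ring
      _ = ∑ c, ∑ p, ∑ d, ∑ q, (S * D c * Sᵀ) p q * (G c d * (S * D d * Sᵀ) p q) := by
          refine Finset.sum_congr rfl fun c _ => Finset.sum_comm
      _ = ∑ p, ∑ c, ∑ d, ∑ q, (S * D c * Sᵀ) p q * (G c d * (S * D d * Sᵀ) p q) :=
          Finset.sum_comm
      _ = ∑ p, ∑ c, ∑ q, ∑ d, (S * D c * Sᵀ) p q * (G c d * (S * D d * Sᵀ) p q) := by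
          refine Finset.sum_congr rfl fun p _ => Finset.sum_congr rfl fun c _ => Finset.sum_comm
      _ = ∑ p, ∑ q, ∑ c, ∑ d, (S * D c * Sᵀ) p q * (G c d * (S * D d * Sᵀ) p q) := by
          refine Finset.sum_congr rfl fun p _ => Finset.sum_comm
  rw [h2]
  refine Finset.sum_nonneg fun p _ => Finset.sum_nonneg fun q _ => ?_
  have := hG.dotProduct_mulVec_nonneg (fun c => (S * D c * Sᵀ) p q)
  simpa [dotProduct, Matrix.mulVec, Finset.mul_sum] using this

/-- the algebra: `D_c = τ W T_c - T_c W τ` -/
theorem pw_alg {t G W : Matrix (Fin n) (Fin n) ℝ} (ht : tᵀ = t) (hW : Wᵀ = W) (hGt : G * t = 1)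
    (htG : t * G = 1) {T T' : Matrix (Fin n) (Fin n) ℝ} (hT' : T'ᵀ = T') :
    (G * (t * W * T - T * W * t) * (G * (t * W * T' - T' * W * t)ᵀ)).trace =
      (W * t * W * T * G * T').trace + (W * t * W * T' * G * T).trace -
        2 * (W * T * W * T').trace := by
  have e1 : G * (t * W * T - T * W * t) = W * T - G * T * W * t := by
    rw [Matrix.mul_sub]
    congr 1
    · rw [← Matrix.mul_assoc, ← Matrix.mul_assoc, hGt, Matrix.one_mul]
    · simp only [Matrix.mul_assoc]
  have e2 : G * (t * W * T' - T' * W * t)ᵀ = G * T' * W * t - W * T' := by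
    rw [Matrix.transpose_sub, Matrix.transpose_mul, Matrix.transpose_mul, Matrix.transpose_mul,
      Matrix.transpose_mul, ht, hW, hT', Matrix.mul_sub]
    congr 1
    · simp only [Matrix.mul_assoc]
    · rw [← Matrix.mul_assoc, hGt, Matrix.one_mul]
  rw [e1, e2, Matrix.sub_mul, Matrix.mul_sub, Matrix.mul_sub, Matrix.trace_sub, Matrix.trace_sub,
    Matrix.trace_sub]
  have f1 : (W * T * (G * T' * W * t)).trace = (W * t * W * T * G * T').trace := by
    rw [show W * T * (G * T' * W * t) = (W * T * G * T') * (W * t) by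
      simp only [Matrix.mul_assoc], Matrix.trace_mul_comm]
    simp only [Matrix.mul_assoc]
  have f2 : (W * T * (W * T')).trace = (W * T * W * T').trace := by
    simp only [Matrix.mul_assoc]
  have f3 : (G * T * W * t * (G * T' * W * t)).trace = (W * T * W * T').trace := by
    rw [show G * T * W * t * (G * T' * W * t) = (G * T * W) * (t * G) * (T' * W * t) by
      simp only [Matrix.mul_assoc], htG, Matrix.mul_one,
      show G * T * W * (T' * W * t) = (G * T * W * T' * W) * t by
      simp only [Matrix.mul_assoc], Matrix.trace_mul_comm,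
      show t * (G * T * W * T' * W) = (t * G) * (T * W * T' * W) by
      simp only [Matrix.mul_assoc], htG, Matrix.one_mul, Matrix.trace_mul_comm]
    simp only [Matrix.mul_assoc]
  have f4 : (G * T * W * t * (W * T')).trace = (W * t * W * T' * G * T).trace := by
    rw [show G * T * W * t * (W * T') = (G * T) * (W * t * W * T') by
      simp only [Matrix.mul_assoc], Matrix.trace_mul_comm]
    simp only [Matrix.mul_assoc]
  rw [f1, f2, f3, f4]
  ring

theorem pw_T {t G W : Matrix (Fin n) (Fin n) ℝ} (hG : G.PosSemidef) (ht : tᵀ = t) (hW : Wᵀ = W)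
    (hGt : G * t = 1) (htG : t * G = 1) (T : Fin n → Matrix (Fin n) (Fin n) ℝ)
    (hT : ∀ c, (T c)ᵀ = T c) :
    ∑ c, ∑ d, G c d * (W * T c * W * T d).trace ≤
      ∑ c, ∑ d, G c d * (W * t * W * T c * G * T d).trace := by
  have h := pw_psd3 hG (fun c => t * W * T c - T c * W * t)
  have hGs : ∀ c d, G c d = G d c := fun c d => by
    have := hG.1.apply d c
    simpa using this
  have e : ∑ c, ∑ d, G c d * (G * (t * W * T c - T c * W * t) *
      (G * (t * W * T d - T d * W * t)ᵀ)).trace =
      ∑ c, ∑ d, G c d * (W * t * W * T c * G * T d).trace +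
        ∑ c, ∑ d, G c d * (W * t * W * T d * G * T c).trace -
        2 * ∑ c, ∑ d, G c d * (W * T c * W * T d).trace := by
    rw [Finset.mul_sum, ← Finset.sum_add_distrib, ← Finset.sum_sub_distrib]
    refine Finset.sum_congr rfl fun c _ => ?_
    rw [Finset.mul_sum, ← Finset.sum_add_distrib, ← Finset.sum_sub_distrib]
    refine Finset.sum_congr rfl fun d _ => ?_
    rw [pw_alg ht hW hGt htG (hT d)]
    ring
  have e2 : ∑ c, ∑ d, G c d * (W * t * W * T d * G * T c).trace =
      ∑ c, ∑ d, G c d * (W * t * W * T c * G * T d).trace := by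
    rw [Finset.sum_comm]
    refine Finset.sum_congr rfl fun d _ => Finset.sum_congr rfl fun c _ => ?_
    rw [hGs c d]
  rw [e, e2] at h
  linarith

theorem pw_tr4 (w : Fin n → ℝ) (X Y : Matrix (Fin n) (Fin n) ℝ) :
    (diagonal w * X * diagonal w * Y).trace = ∑ a, ∑ i, w a * w i * (X a i * Y i a) := by
  rw [Matrix.trace]
  refine Finset.sum_congr rfl fun a _ => ?_
  rw [Matrix.diag_apply, Matrix.mul_apply]
  refine Finset.sum_congr rfl fun i _ => ?_
  rw [Matrix.mul_diagonal, Matrix.diagonal_mul]
  ring

/-- nonnegativity of the Dirichlet energy -/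
theorem n1_nonneg {t : Matrix (Fin n) (Fin n) ℝ} (ht : t.PosSemidef)
    (P : Fin n → Fin n → Fin n → ℝ) {w : Fin n → ℝ} (hw : ∀ a, 0 ≤ w a) :
    0 ≤ ∑ a, ∑ i, w a * w i * ∑ b, ∑ c, t b c * P b a i * P c a i := by
  refine Finset.sum_nonneg fun a _ => Finset.sum_nonneg fun i _ => ?_
  refine mul_nonneg (mul_nonneg (hw a) (hw i)) ?_
  have := ht.dotProduct_mulVec_nonneg (fun b => P b a i)
  have e : star (fun b => P b a i) ⬝ᵥ t *ᵥ (fun b => P b a i) =
      ∑ b, ∑ c, t b c * P b a i * P c a i := by
    simp only [dotProduct, Matrix.mulVec, Finset.mul_sum, star_trivial]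
    refine Finset.sum_congr rfl fun b _ => Finset.sum_congr rfl fun c _ => by ring
  rwa [e] at this

/-- the pointwise inequality `N1 ≤ N2` -/
theorem n1_le_n2 {t : Matrix (Fin n) (Fin n) ℝ} (ht : t.PosDef)
    {P : Fin n → Fin n → Fin n → ℝ} (hP : ∀ e b c, P e b c = P e c b)
    (hS : ∀ a b c, ∑ e, t a e * P e b c = ∑ e, t b e * P e a c) (w : Fin n → ℝ) :
    ∑ a, ∑ i, w a * w i * (∑ b, ∑ c, t b c * P b a i * P c a i) ≤
      ∑ a, ∑ i, w a * w i * t a i * (∑ b, ∑ c, P c a b * P b i c) := by
  have hts : tᵀ = t := by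
    have := ht.1
    rwa [Matrix.IsHermitian, Matrix.conjTranspose_eq_transpose_of_trivial] at this
  have hu : IsUnit t.det := (Matrix.isUnit_iff_isUnit_det t).1 ht.isUnit
  have hGt : t⁻¹ * t = 1 := Matrix.nonsing_inv_mul t hu
  have htG : t * t⁻¹ = 1 := Matrix.mul_nonsing_inv t hu
  have hG : (t⁻¹).PosSemidef := ht.inv.posSemidef
  set G := t⁻¹ with hGdef
  have hGs : ∀ c d, G c d = G d c := fun c d => by
    have := hG.1.apply d c
    simpa using this
  set T : Fin n → Matrix (Fin n) (Fin n) ℝ := fun c => Matrix.of fun i b => ∑ e, t c e * P e i b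
    with hTdef
  have hTa : ∀ c i b, T c i b = ∑ e, t c e * P e i b := fun _ _ _ => rfl
  have hT : ∀ c, (T c)ᵀ = T c := by
    intro c
    ext i b
    rw [Matrix.transpose_apply, hTa, hTa]
    exact Finset.sum_congr rfl fun e _ => by rw [hP e b i]
  have hT2 : ∀ c i b, T c i b = T i c b := by
    intro c i b
    rw [hTa, hTa, hS c i b]
  have key : ∀ (p : Fin n → ℝ) (d : Fin n), ∑ c, G d c * ∑ e, t c e * p e = p d := by
    intro p d
    have h1 : (G *ᵥ (t *ᵥ p)) d = p d := by
      rw [Matrix.mulVec_mulVec, hGt, Matrix.one_mulVec]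
    simpa only [Matrix.mulVec, dotProduct] using h1
  have h := pw_T (W := diagonal w) hG hts (Matrix.diagonal_transpose w) hGt htG T hT
  have eL : ∑ c, ∑ d, G c d * (diagonal w * T c * diagonal w * T d).trace =
      ∑ a, ∑ i, w a * w i * (∑ b, ∑ c, t b c * P b a i * P c a i) := by
    calc ∑ c, ∑ d, G c d * (diagonal w * T c * diagonal w * T d).trace
        = ∑ c, ∑ d, ∑ a, ∑ i, w a * w i * (T c a i * (G c d * T d i a)) := by
          refine Finset.sum_congr rfl fun c _ => Finset.sum_congr rfl fun d _ => ?_
          rw [pw_tr4, Finset.mul_sum]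
          refine Finset.sum_congr rfl fun a _ => ?_
          rw [Finset.mul_sum]
          refine Finset.sum_congr rfl fun i _ => by ring
      _ = ∑ a, ∑ i, ∑ c, ∑ d, w a * w i * (T c a i * (G c d * T d i a)) := by
          rw [Finset.sum_congr rfl fun c _ => Finset.sum_comm, Finset.sum_comm]
          refine Finset.sum_congr rfl fun a _ => ?_
          rw [Finset.sum_congr rfl fun c _ => Finset.sum_comm, Finset.sum_comm]
      _ = _ := by
          refine Finset.sum_congr rfl fun a _ => Finset.sum_congr rfl fun i _ => ?_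
          rw [Finset.mul_sum]
          refine Finset.sum_congr rfl fun c _ => ?_
          rw [← Finset.mul_sum, ← Finset.mul_sum]
          have h2 : ∑ d, G c d * T d i a = P c a i := by
            rw [← hP c i a]
            exact key (fun e => P e i a) c
          rw [h2, hTa, Finset.sum_mul]
          congr 1
          refine Finset.sum_congr rfl fun e _ => by ring
  have eR : ∑ c, ∑ d, G c d * (diagonal w * t * diagonal w * T c * G * T d).trace =
      ∑ a, ∑ i, w a * w i * t a i * (∑ b, ∑ c, P c a b * P b i c) := by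
    calc ∑ c, ∑ d, G c d * (diagonal w * t * diagonal w * T c * G * T d).trace
        = ∑ c, ∑ d, ∑ a, ∑ i, w a * w i * t a i * (G c d * (T c * G * T d) i a) := by
          refine Finset.sum_congr rfl fun c _ => Finset.sum_congr rfl fun d _ => ?_
          rw [show diagonal w * t * diagonal w * T c * G * T d =
            diagonal w * t * diagonal w * (T c * G * T d) by simp only [Matrix.mul_assoc],
            pw_tr4, Finset.mul_sum]
          refine Finset.sum_congr rfl fun a _ => ?_
          rw [Finset.mul_sum]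
          refine Finset.sum_congr rfl fun i _ => by ring
      _ = ∑ a, ∑ i, ∑ c, ∑ d, w a * w i * t a i * (G c d * (T c * G * T d) i a) := by
          rw [Finset.sum_congr rfl fun c _ => Finset.sum_comm, Finset.sum_comm]
          refine Finset.sum_congr rfl fun a _ => ?_
          rw [Finset.sum_congr rfl fun c _ => Finset.sum_comm, Finset.sum_comm]
      _ = _ := by
          refine Finset.sum_congr rfl fun a _ => Finset.sum_congr rfl fun i _ => ?_
          have h3 : ∑ c, ∑ d, G c d * (T c * G * T d) i a = ∑ b, ∑ c, P c a b * P b i c := by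
            calc ∑ c, ∑ d, G c d * (T c * G * T d) i a
                = ∑ c, ∑ d, ∑ b', ∑ b, (G d c * T c i b) * (G b b' * T b' d a) := by
                  refine Finset.sum_congr rfl fun c _ => Finset.sum_congr rfl fun d _ => ?_
                  rw [Matrix.mul_apply, Finset.mul_sum]
                  refine Finset.sum_congr rfl fun b' _ => ?_
                  rw [Matrix.mul_apply, Finset.sum_mul, Finset.mul_sum]
                  refine Finset.sum_congr rfl fun b _ => ?_
                  rw [hGs c d, hT2 d b' a]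
                  ring
              _ = ∑ d, ∑ b, ∑ c, ∑ b', (G d c * T c i b) * (G b b' * T b' d a) := by
                  rw [Finset.sum_comm]
                  refine Finset.sum_congr rfl fun d _ => ?_
                  rw [Finset.sum_congr rfl fun c _ => Finset.sum_comm, Finset.sum_comm]
              _ = ∑ d, ∑ b, P d i b * P b d a := by
                  refine Finset.sum_congr rfl fun d _ => Finset.sum_congr rfl fun b _ => ?_
                  rw [← key (fun e => P e i b) d, ← key (fun e => P e d a) b,
                    Finset.sum_mul_sum]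
                  rfl
              _ = _ := by
                  refine Finset.sum_congr rfl fun d _ => Finset.sum_congr rfl fun b _ => ?_
                  rw [hP b d a]
                  ring
          rw [← h3, Finset.mul_sum]
          refine Finset.sum_congr rfl fun c _ => ?_
          rw [Finset.mul_sum]
  rw [eL, eR] at h
  exact h

theorem pw_posW {t : Matrix (Fin n) (Fin n) ℝ} (ht : t.PosSemidef) (X : Matrix (Fin n) (Fin n) ℝ) :
    (X * t * Xᵀ).PosSemidef := by
  have := ht.mul_mul_conjTranspose_same X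
  rwa [Matrix.conjTranspose_eq_transpose_of_trivial] at this

theorem pw_symm {t : Matrix (Fin n) (Fin n) ℝ} (ht : t.PosSemidef) : tᵀ = t := by
  have := ht.1
  rwa [Matrix.IsHermitian, Matrix.conjTranspose_eq_transpose_of_trivial] at this

/-- monotonicity of the cubic term -/
theorem tr_mono {t H B : Matrix (Fin n) (Fin n) ℝ} (ht : t.PosSemidef) (w : Fin n → ℝ)
    (hHB : (H - B).PosSemidef) :
    (B * (t * diagonal w * t * diagonal w * t)).trace ≤
      (H * (t * diagonal w * t * diagonal w * t)).trace := by
  have hts := pw_symm ht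
  have h1 := pw_tr_nonneg hHB (pw_posW ht (t * diagonal w))
  rw [Matrix.transpose_mul, hts, Matrix.diagonal_transpose, Matrix.sub_mul, Matrix.trace_sub] at h1
  rw [show t * diagonal w * t * diagonal w * t = t * diagonal w * t * (diagonal w * t) by
    simp only [Matrix.mul_assoc]]
  linarith

/-- linearisation of the cubic term -/
theorem tr_lin {t : Matrix (Fin n) (Fin n) ℝ} (ht : t.PosSemidef) {b : Fin n → ℝ}
    (hb : ∀ i, 0 ≤ b i) (w y : Fin n → ℝ) :
    2 * ∑ i, ∑ j, b i * y i * w i * w j * t i j ^ 2 - ∑ i, b i * y i ^ 2 * w i ^ 2 * t i i ≤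
      (diagonal b * (t * diagonal w * t * diagonal w * t)).trace := by
  have hts := pw_symm ht
  have htij : ∀ i j, t j i = t i j := fun i j => by
    have := congrFun (congrFun hts i) j
    simpa using this
  have hB : (diagonal b).PosSemidef := by
    refine Matrix.PosSemidef.diagonal ?_
    intro i
    exact hb i
  have h1 := pw_tr_nonneg hB (pw_posW ht ((t - diagonal y) * diagonal w))
  rw [Matrix.transpose_mul, Matrix.transpose_sub, hts, Matrix.diagonal_transpose,
    Matrix.diagonal_transpose] at h1
  have e1 : (t - diagonal y) * diagonal w * t * (diagonal w * (t - diagonal y)) =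
      t * diagonal w * t * diagonal w * t - diagonal y * diagonal w * t * diagonal w * t
        - (t * diagonal w * t * diagonal w * diagonal y
          - diagonal y * diagonal w * t * diagonal w * diagonal y) := by
    noncomm_ring
  rw [e1, Matrix.mul_sub, Matrix.mul_sub, Matrix.mul_sub, Matrix.trace_sub, Matrix.trace_sub,
    Matrix.trace_sub] at h1
  have e2 : (diagonal b * (diagonal y * diagonal w * t * diagonal w * t)).trace =
      ∑ i, ∑ j, b i * y i * w i * w j * t i j ^ 2 := by
    rw [show diagonal b * (diagonal y * diagonal w * t * diagonal w * t) =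
      (diagonal b * diagonal y * diagonal w) * t * diagonal w * t by
      simp only [Matrix.mul_assoc], Matrix.diagonal_mul_diagonal, Matrix.diagonal_mul_diagonal,
      Matrix.trace]
    refine Finset.sum_congr rfl fun i _ => ?_
    rw [Matrix.diag_apply, Matrix.mul_apply]
    refine Finset.sum_congr rfl fun j _ => ?_
    rw [Matrix.mul_diagonal, Matrix.diagonal_mul, htij]
    ring
  have e3 : (diagonal b * (t * diagonal w * t * diagonal w * diagonal y)).trace =
      ∑ i, ∑ j, b i * y i * w i * w j * t i j ^ 2 := by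
    rw [show diagonal b * (t * diagonal w * t * diagonal w * diagonal y) =
      (diagonal b * t * diagonal w) * (t * (diagonal w * diagonal y)) by
      simp only [Matrix.mul_assoc], Matrix.diagonal_mul_diagonal, Matrix.trace]
    refine Finset.sum_congr rfl fun i _ => ?_
    rw [Matrix.diag_apply, Matrix.mul_apply]
    refine Finset.sum_congr rfl fun j _ => ?_
    rw [Matrix.mul_diagonal, Matrix.diagonal_mul, Matrix.mul_diagonal, htij]
    ring
  have e4 : (diagonal b * (diagonal y * diagonal w * t * diagonal w * diagonal y)).trace =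
      ∑ i, b i * y i ^ 2 * w i ^ 2 * t i i := by
    rw [show diagonal b * (diagonal y * diagonal w * t * diagonal w * diagonal y) =
      (diagonal b * diagonal y * diagonal w) * t * (diagonal w * diagonal y) by
      simp only [Matrix.mul_assoc], Matrix.diagonal_mul_diagonal, Matrix.diagonal_mul_diagonal,
      Matrix.diagonal_mul_diagonal, Matrix.trace]
    refine Finset.sum_congr rfl fun i _ => ?_
    rw [Matrix.diag_apply, Matrix.mul_diagonal, Matrix.diagonal_mul]
    ring
  rw [e2, e3, e4] at h1
  linarith

end Vale.Agent.P254.S2
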