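import Vale.Agent.P254.S2.Ifc
import Vale.Agent.P254.S2.N1B
import Vale.Agent.P254.S2.Pw
import Vale.Agent.P254.S814.RadC
import Vale.Agent.P254.S2.BasMM

/-! # P254/S2 (helper232): the block `StmtN1` -/

open MeasureTheory Filter
open scoped NNReal
open Vale.Agent.P227.M Vale.Agent.P227.M.K814

namespace Vale.Agent.P254.SN

variable {n : ℕ} {ψ V : E n → ℝ} {c C M c1 C1 : ℝ}

/-- the inverse Hessian of the moment map is a frame -/
theorem tb_tau (hR : Reg V c1 C1) (h : MC.MMc ψ V c C M) : TB V (tau ψ) where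
  V2 := hR.C2
  lip := fun i j => by
    have hc := h.c_pos
    refine ⟨((n : ℝ) * n * (1 / c) * |M| * (1 / c)).toNNReal, ?_⟩
    refine LipschitzWith.of_dist_le_mul fun x y => ?_
    rw [Real.dist_eq, dist_eq_norm, Real.coe_toNNReal _ (by positivity)]
    exact S814.rad_tau_lip h x y i j
  symm := S814.rad_tau_symm h
  div := by
    filter_upwards [S814.rad_good h] with x hx a
    rw [← S814.rad_div h hx a]
    refine Finset.sum_congr rfl fun b _ => ?_
    have e : (fun y => tau ψ y a b) = fun y => tau ψ y b a :=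
      funext fun y => S814.rad_tau_symm h y a b
    rw [e, S814.rad_tau_symm h x a b]
  tot := by
    filter_upwards [S814.rad_good h] with x hx d b k
    exact S814.rad_T h hx d b k
  bt := ⟨1 / c, fun x i j => S814.rad_tau_le h x i j⟩
  bV := by
    obtain ⟨B, hB⟩ := hR.abs_hess
    exact ⟨B, fun x i j => hB x i j⟩
  int := hR.integrable_exp

theorem gb_gam {t : E n → Matrix (Fin n) (Fin n) ℝ} (h : TB V t) (i j : Fin n) :
    GB (fun x => ∑ k, ∑ l, t x k l * pd k (fun y => t y i j) x * pd l (fun y => t y i j) x) :=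
  GB.sum _ fun k _ => GB.sum _ fun l _ => ((gb_t h k l).mul (gb_pt h k i j)).mul (gb_pt h l i j)

theorem I_sum2 (hV : Integrable (fun x => Real.exp (-V x))) (w : Fin n → ℝ)
    {f : Fin n → Fin n → E n → ℝ} (hf : ∀ i j, GB (f i j)) :
    I V (fun x => ∑ i, ∑ j, w i * w j * f i j x) = ∑ i, ∑ j, w i * w j * I V (f i j) := by
  unfold I
  have e : ∀ x, (∑ i, ∑ j, w i * w j * f i j x) * Real.exp (-V x) =
      ∑ i, ∑ j, w i * w j * (f i j x * Real.exp (-V x)) := by
    intro x
    rw [Finset.sum_mul]
    refine Finset.sum_congr rfl fun i _ => ?_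
    rw [Finset.sum_mul]
    exact Finset.sum_congr rfl fun j _ => by ring
  simp only [e]
  rw [integral_finsetSum]
  · refine Finset.sum_congr rfl fun i _ => ?_
    rw [integral_finsetSum]
    · refine Finset.sum_congr rfl fun j _ => ?_
      rw [integral_const_mul]
    · exact fun j _ => ((hf i j).int hV).const_mul _
  · exact fun i _ => integrable_finsetSum _ fun j _ => ((hf i j).int hV).const_mul _

theorem I_comb (hV : Integrable (fun x => Real.exp (-V x))) {f1 f2 f3 f4 : E n → ℝ}
    (h1 : GB f1) (h2 : GB f2) (h3 : GB f3) (h4 : GB f4) :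
    I V (fun x => f1 x + f2 x + f3 x - f4 x) = I V f1 + I V f2 + I V f3 - I V f4 := by
  unfold I
  have e : ∀ x, (f1 x + f2 x + f3 x - f4 x) * Real.exp (-V x) =
      f1 x * Real.exp (-V x) + f2 x * Real.exp (-V x) + f3 x * Real.exp (-V x)
        - f4 x * Real.exp (-V x) := fun x => by ring
  simp only [e]
  have i12 : Integrable (fun x => f1 x * Real.exp (-V x) + f2 x * Real.exp (-V x)) :=
    (h1.int hV).add (h2.int hV)
  have i123 : Integrable (fun x => f1 x * Real.exp (-V x) + f2 x * Real.exp (-V x)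
      + f3 x * Real.exp (-V x)) := i12.add (h3.int hV)
  rw [integral_sub i123 (h4.int hV), integral_add i12 (h3.int hV),
    integral_add (h1.int hV) (h2.int hV)]

theorem tr_cub (H t : Matrix (Fin n) (Fin n) ℝ) (ht : ∀ i j, t i j = t j i) (w : Fin n → ℝ) :
    (H * t * Matrix.diagonal w * t * Matrix.diagonal w * t).trace =
      ∑ a, ∑ i, w a * w i * t a i * (∑ b, ∑ e, t i e * H e b * t a b) := by
  have e1 : H * t * Matrix.diagonal w * t * Matrix.diagonal w * t =
      (H * t) * (Matrix.diagonal w * t * Matrix.diagonal w * t) := by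
    simp only [Matrix.mul_assoc]
  rw [e1, Matrix.trace_mul_comm]
  have e2 : Matrix.diagonal w * t * Matrix.diagonal w * t * (H * t) =
      Matrix.diagonal w * t * Matrix.diagonal w * (t * H * t) := by
    simp only [Matrix.mul_assoc]
  rw [e2, S2.pw_tr4]
  refine Finset.sum_congr rfl fun a _ => Finset.sum_congr rfl fun i _ => ?_
  have e3 : (t * H * t) i a = ∑ b, ∑ e, t i e * H e b * t a b := by
    rw [Matrix.mul_apply]
    refine Finset.sum_congr rfl fun b _ => ?_
    rw [Matrix.mul_apply, Finset.sum_mul]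
    refine Finset.sum_congr rfl fun e _ => ?_
    rw [ht b a]
  rw [e3]
  ring

end Vale.Agent.P254.SN

namespace Vale.Agent.P254.S2

open Vale.Agent.P254.SN

/-- the block N1 -/
theorem stmtN1 : StmtN1 := by
  intro n ψ V c C M c1 C1 hR h w hw
  have hT : TB V (tau ψ) := tb_tau hR h
  have hV := hT.int
  have hZ := hR.Z_pos
  set A1 : E n → ℝ := fun x => ∑ a, ∑ i, w a * w i * tau ψ x a i *
    (∑ b, ∑ e, tau ψ x i e * pd e (pd b V) x * tau ψ x a b) with hA1
  set N1 : E n → ℝ := fun x => ∑ a, ∑ i, w a * w i *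
    (∑ b, Dt (tau ψ) b (fun y => tau ψ y i a) x * pd b (fun y => tau ψ y a i) x) with hN1
  set N2 : E n → ℝ := fun x => ∑ a, ∑ i, w a * w i * tau ψ x a i *
    (∑ b, ∑ e, pd b (fun y => tau ψ y i e) x * pd e (fun y => tau ψ y a b) x) with hN2
  set A0 : E n → ℝ := fun x => ∑ a, ∑ i, w a * w i * (tau ψ x i a * tau ψ x a i) with hA0
  have g1 : GB A1 := GB.sum _ fun a _ => GB.sum _ fun i _ => ((GB.const _).mul (gb_t hT a i)).mul
    (GB.sum _ fun b _ => GB.sum _ fun e _ => ((gb_t hT i e).mul (gb_V hT e b)).mul (gb_t hT a b))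
  have g2 : GB N1 := GB.sum _ fun a _ => GB.sum _ fun i _ => (GB.const _).mul
    (GB.sum _ fun b _ => (gb_Dt hT b i a).mul (gb_pt hT b a i))
  have g3 : GB N2 := GB.sum _ fun a _ => GB.sum _ fun i _ => ((GB.const _).mul (gb_t hT a i)).mul
    (GB.sum _ fun b _ => GB.sum _ fun e _ => (gb_pt hT b i e).mul (gb_pt hT e a b))
  have g4 : GB A0 := GB.sum _ fun a _ => GB.sum _ fun i _ => (GB.const _).mul
    ((gb_t hT i a).mul (gb_t hT a i))
  have hid : I V A1 + I V N1 + I V N2 - I V A0 = 0 := by
    rw [← I_comb hV g1 g2 g3 g4]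
    exact stat_id hT w
  -- pointwise
  have hN1g : ∀ x, N1 x = ∑ i, ∑ j, w i * w j * gam ψ (fun x => tau ψ x i j) x := by
    intro x
    refine Finset.sum_congr rfl fun a _ => Finset.sum_congr rfl fun i _ => ?_
    congr 1
    unfold gam Dt
    refine Finset.sum_congr rfl fun b _ => ?_
    have e : (fun y => tau ψ y i a) = fun y => tau ψ y a i :=
      funext fun y => S814.rad_tau_symm h y i a
    rw [Finset.sum_mul, e]
    exact Finset.sum_congr rfl fun l _ => by ring
  have hle : I V N1 ≤ I V N2 := by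
    refine integral_mono_ae (g2.int hV) (g3.int hV) ?_
    filter_upwards [S814.rad_good h] with x hx
    refine mul_le_mul_of_nonneg_right ?_ (Real.exp_pos _).le
    have h1 := n1_le_n2 (h.tau_posDef x) (P := fun e a b => pd e (fun y => tau ψ y a b) x)
      (fun e b c => by
        have e1 : (fun y => tau ψ y b c) = fun y => tau ψ y c b :=
          funext fun y => S814.rad_tau_symm h y b c
        simp only [e1])
      (fun a b c => S814.rad_T h hx a b c) w
    rw [hN1g x]
    refine le_trans (le_of_eq ?_) (h1.trans (le_of_eq ?_))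
    · refine Finset.sum_congr rfl fun a _ => Finset.sum_congr rfl fun i _ => rfl
    · refine Finset.sum_congr rfl fun a _ => Finset.sum_congr rfl fun i _ => ?_
      congr 1
      exact Finset.sum_congr rfl fun b _ => Finset.sum_congr rfl fun e _ => mul_comm _ _
  have hE1 : ∑ i, ∑ j, w i * w j * I V (gam ψ (fun x => tau ψ x i j)) = I V N1 := by
    have h0 := I_sum2 hV w (f := fun i j => gam ψ (fun x => tau ψ x i j))
      fun i j => gb_gam hT i j
    rw [← h0]
    congr 1
    funext x
    exact (hN1g x).symm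
  have hE0 : (fun x => (Matrix.diagonal w * tau ψ x * Matrix.diagonal w * tau ψ x).trace) = A0 := by
    funext x
    rw [pw_tr4]
    exact Finset.sum_congr rfl fun a _ => Finset.sum_congr rfl fun i _ => by
      rw [mul_comm (tau ψ x a i)]
  have hE2 : (fun x => (hess V x * tau ψ x * Matrix.diagonal w * tau ψ x * Matrix.diagonal w
      * tau ψ x).trace) = A1 := by
    funext x
    rw [tr_cub _ _ (fun i j => S814.rad_tau_symm h x i j)]
    rfl
  rw [hE0, hE2]
  have hEx : ∀ f : E n → ℝ, Ex V f = I V f / ∫ x, Real.exp (-V x) := fun _ => rfl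
  simp only [hEx]
  have e3 : ∑ i, ∑ j, w i * w j * (I V (gam ψ (fun x => tau ψ x i j)) / ∫ x, Real.exp (-V x)) =
      I V N1 / ∫ x, Real.exp (-V x) := by
    rw [← hE1, Finset.sum_div]
    refine Finset.sum_congr rfl fun i _ => ?_
    rw [Finset.sum_div]
    exact Finset.sum_congr rfl fun j _ => by rw [mul_div_assoc]
  rw [e3, ← sub_div, ← mul_div_assoc]
  exact div_le_div_of_nonneg_right (by linarith) hZ.le

end Vale.Agent.P254.S2
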