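import Vale.Agent.P227.M.ID.K.Sw

/-! # P254/S2 (helper232): the static identity with cut-off

`TF V t` : `t` is a symmetric Lipschitz matrix field with `div_μ t = -x` and `∑ t_de ∂_e t_bk`
totally symmetric.  For a Lipschitz compactly supported `Q`

`∫ (t V'' t)_{ai} Q = ∫ t_{ai} Q - ∫ Q ∑ ∂_c t_ab ∂_b t_ic - ∫ ⟨t ∇ t_ia, ∇ Q⟩`. -/

open MeasureTheory Filter Topology Set Metric
open scoped NNReal ENNReal ContDiff
open Vale.Agent.P227.M Vale.Agent.P227.M.K814

namespace Vale.Agent.P254.SN

variable {n : ℕ} {V : E n → ℝ} {t : E n → Matrix (Fin n) (Fin n) ℝ}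

/-- the abstract field -/
structure TF (V : E n → ℝ) (t : E n → Matrix (Fin n) (Fin n) ℝ) : Prop where
  V2 : ContDiff ℝ 2 V
  lip : ∀ i j, ∃ K : ℝ≥0, LipschitzWith K fun x => t x i j
  symm : ∀ x i j, t x i j = t x j i
  div : ∀ᵐ x, ∀ a, ∑ b, (pd b (fun y => t y a b) x - t x a b * pd b V x) = - x a
  tot : ∀ᵐ x, ∀ d b k, ∑ e, t x d e * pd e (fun z => t z b k) x =
    ∑ e, t x b e * pd e (fun z => t z d k) x

/-- `(t ∇ f)_a` -/
noncomputable def Dt (t : E n → Matrix (Fin n) (Fin n) ℝ) (a : Fin n) (f : E n → ℝ) (x : E n) : ℝ :=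
  ∑ b, t x a b * pd b f x

/-- `∫ ∂_a P (∂_e Q - V_e Q) e^{-V} = ∫ ∂_e P (∂_a Q - V_a Q) e^{-V}` for Lipschitz `P` -/
theorem swapL (hV : ContDiff ℝ 1 V) {P Q : E n → ℝ} {K : ℝ≥0} (hK : LipschitzWith K P) (hQ : LC Q)
    (a e : Fin n) :
    I V (fun x => pd a P x * (pd e Q x - pd e V x * Q x)) =
      I V (fun x => pd e P x * (pd a Q x - pd a V x * Q x)) := by
  have hE : LocallyLipschitz (fun x => Real.exp (-V x)) := ll_of_contDiff (by fun_prop)
  have hΦ : LC (fun x => Q x * Real.exp (-V x)) := hQ.mul_right hE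
  obtain ⟨K', hK'⟩ := hΦ.lip
  have key := Tool.swap_fderiv (μ := (volume : Measure (E n))) hK hK' hΦ.2 (ei a) (ei e)
  have hVd : ∀ x, DifferentiableAt ℝ V x := fun x => (hV.differentiable (by simp)).differentiableAt
  have hpd : ∀ (i : Fin n) (x : E n), DifferentiableAt ℝ Q x →
      fderiv ℝ (fun x => Q x * Real.exp (-V x)) x (ei i) =
        (pd i Q x - pd i V x * Q x) * Real.exp (-V x) := by
    intro i x hQx
    have h1 : HasFDerivAt (fun x => Real.exp (-V x)) (Real.exp (-V x) • (-(fderiv ℝ V x))) x :=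
      ((hVd x).hasFDerivAt.neg).exp
    rw [(hQx.hasFDerivAt.fun_mul h1).fderiv]
    simp only [pd, add_apply, smul_apply, neg_apply, smul_eq_mul]
    ring
  have e1 : ∀ i j : Fin n, ∫ x, fderiv ℝ P x (ei i) * fderiv ℝ (fun x => Q x * Real.exp (-V x)) x (ei j) =
      I V (fun x => pd i P x * (pd j Q x - pd j V x * Q x)) := by
    intro i j
    unfold I
    refine integral_congr_ae ?_
    filter_upwards [hQ.ae_diff] with x hx
    rw [hpd j x hx]
    simp only [pd]; ring
  rw [← e1 a e, ← e1 e a]
  exact key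

section
variable (h : TF V t)
include h

theorem tll (a b : Fin n) : LocallyLipschitz (fun x => t x a b) := by
  obtain ⟨K, hK⟩ := h.lip a b
  exact hK.locallyLipschitz

theorem tae : ∀ᵐ x : E n, ∀ i j, DifferentiableAt ℝ (fun y => t y i j) x := by
  rw [ae_all_iff]
  intro i
  rw [ae_all_iff]
  intro j
  obtain ⟨K, hK⟩ := h.lip i j
  exact hK.ae_differentiableAt

theorem bd_Dt {f : E n → ℝ} (hf : LocallyLipschitz f) (a : Fin n) : Bd (Dt t a f) :=
  Bd.sum _ fun b _ => (Bd.of_ll (tll h a b)).mul (Bd.pd hf b)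

theorem ci_Dt {f : E n → ℝ} (hf : LC f) (a : Fin n) : CI (Dt t a f) :=
  CI.sum _ fun b _ => CI.mul_left (Bd.of_ll (tll h a b)) (CI.pd hf b)

/-- `E D_a f = E x_a f` -/
theorem tcore {f G : E n → ℝ} (hf : LC f) (a : Fin n)
    (hG : ∀ᵐ x, G x = Dt t a f x - x a * f x) : I V G = 0 := by
  have hV1 : ContDiff ℝ 1 V := h.V2.of_le (by norm_num)
  refine divsum hV1 (g := fun b x => t x a b * f x) (fun b => LC.mul_left (tll h a b) hf) ?_
  filter_upwards [hG, hf.ae_diff, tae h, h.div] with x hx hfx hgx hdx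
  rw [hx]
  have hd := hdx a
  have e1 : ∀ b, pd b (fun y => t y a b * f y) x =
      pd b (fun y => t y a b) x * f x + t x a b * pd b f x := fun b =>
    Vale.Agent.P227.M.rpd_mul (hgx a b) hfx
  simp only [e1]
  have e2 : ∀ b, pd b (fun y => t y a b) x * f x + t x a b * pd b f x -
      pd b V x * (t x a b * f x) = t x a b * pd b f x +
      (pd b (fun y => t y a b) x - t x a b * pd b V x) * f x := by
    intro b; ring
  simp only [e2]
  rw [Finset.sum_add_distrib, ← Finset.sum_mul, hd]
  unfold Dt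
  ring

/-- the identity for a pair of indices -/
theorem stat_pair {Q : E n → ℝ} (hQ : LC Q) (a i : Fin n) :
    I V (fun x => (∑ b, ∑ e, t x i e * pd e (pd b V) x * t x a b) * Q x
      + (∑ b, Dt t b (fun y => t y i a) x * pd b Q x)
      + (∑ b, ∑ e, pd b (fun y => t y i e) x * pd e (fun y => t y a b) x) * Q x
      - t x i a * Q x) = 0 := by
  have hV1 : ContDiff ℝ 1 V := h.V2.of_le (by norm_num)
  have hVa : ∀ b, ContDiff ℝ 1 (pd b V) := fun b => FlatB.contDiff_pd h.V2 b
  have hVll : ∀ b, LocallyLipschitz (pd b V) := fun b => ll_of_contDiff (hVa b)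
  have hVc := hV1.continuous
  have hVcont : ∀ e, Continuous (pd e V) := FlatB.continuous_pd hV1
  -- the divergence part
  have hg : ∀ b, LC (fun x => pd b V x * (t x a b * Q x)) := fun b =>
    LC.mul_left (hVll b) (LC.mul_left (tll h a b) hQ)
  have hAc : ∀ b, CI (fun x => Dt t i (fun y => pd b V y * (t y a b * Q y)) x
      - x i * (pd b V x * (t x a b * Q x))) := fun b =>
    (ci_Dt h (hg b) i).sub (CI.of_lc (LC.mul_left (ll_coord i) (hg b)))
  have hA : ∀ b, I V (fun x => Dt t i (fun y => pd b V y * (t y a b * Q y)) x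
      - x i * (pd b V x * (t x a b * Q x))) = 0 := fun b =>
    tcore h (hg b) i (Eventually.of_forall fun x => rfl)
  -- the swap part
  have hQe : ∀ e, LC (fun x => t x i e * Q x) := fun e => LC.mul_left (tll h i e) hQ
  have hCI : ∀ b e p q, CI (fun x => pd p (fun y => t y a b) x * (pd q (fun y => t y i e * Q y) x
      - pd q V x * (t x i e * Q x))) := fun b e p q =>
    CI.mul_left (Bd.pd (tll h a b) p) ((CI.pd (hQe e) q).sub
      (CI.mul_left (Bd.of_cont (hVcont q)) (CI.of_lc (hQe e))))
  have hBc : ∀ b, CI (fun x => ∑ e, (pd e (fun y => t y a b) x * (pd b (fun y => t y i e * Q y) x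
      - pd b V x * (t x i e * Q x)) - pd b (fun y => t y a b) x * (pd e (fun y => t y i e * Q y) x
      - pd e V x * (t x i e * Q x)))) := fun b =>
    CI.sum _ fun e _ => (hCI b e e b).sub (hCI b e b e)
  have hB : ∀ b, I V (fun x => ∑ e, (pd e (fun y => t y a b) x * (pd b (fun y => t y i e * Q y) x
      - pd b V x * (t x i e * Q x)) - pd b (fun y => t y a b) x * (pd e (fun y => t y i e * Q y) x
      - pd e V x * (t x i e * Q x)))) = 0 := by
    intro b
    obtain ⟨K, hK⟩ := h.lip a b
    rw [I_sum _ hVc fun e _ => (hCI b e e b).sub (hCI b e b e)]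
    refine Finset.sum_eq_zero fun e _ => ?_
    rw [I_sub hVc (hCI b e e b) (hCI b e b e), swapL hV1 hK (hQe e) b e, sub_self]
  -- the corrector
  have hx : LC (fun x => x a * Q x) := LC.mul_left (ll_coord a) hQ
  have hCc : CI (fun x => Dt t i (fun y => y a * Q y) x - x i * (x a * Q x)) :=
    (ci_Dt h hx i).sub (CI.of_lc (LC.mul_left (ll_coord i) hx))
  have hC : I V (fun x => Dt t i (fun y => y a * Q y) x - x i * (x a * Q x)) = 0 :=
    tcore h hx i (Eventually.of_forall fun x => rfl)
  have hAll : I V (fun x => (∑ b, ((Dt t i (fun y => pd b V y * (t y a b * Q y)) x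
      - x i * (pd b V x * (t x a b * Q x))) + ∑ e, (pd e (fun y => t y a b) x *
      (pd b (fun y => t y i e * Q y) x
      - pd b V x * (t x i e * Q x)) - pd b (fun y => t y a b) x * (pd e (fun y => t y i e * Q y) x
      - pd e V x * (t x i e * Q x)))))
      - (Dt t i (fun y => y a * Q y) x - x i * (x a * Q x))) = 0 := by
    rw [I_sub hVc (CI.sum _ fun b _ => (hAc b).add (hBc b)) hCc, hC, sub_zero,
      I_sum _ hVc fun b _ => (hAc b).add (hBc b)]
    refine Finset.sum_eq_zero fun b _ => ?_
    rw [I_add hVc (hAc b) (hBc b), hA b, hB b, add_zero]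
  rw [← hAll]
  refine I_congr ?_
  filter_upwards [hQ.ae_diff, tae h, h.div, h.tot] with x hQx hgx hdx htx
  have hVx : ∀ b, DifferentiableAt ℝ (pd b V) x := fun b =>
    ((hVa b).differentiable (by simp)).differentiableAt
  have hxa : DifferentiableAt ℝ (fun y : E n => y a) x := rad_diff_coord a x
  have e1 : ∀ e p, pd p (fun y => t y i e * Q y) x =
      pd p (fun y => t y i e) x * Q x + t x i e * pd p Q x := fun e p =>
    Vale.Agent.P227.M.rpd_mul (hgx i e) hQx
  have e2 : ∀ b p, pd p (fun y => pd b V y * (t y a b * Q y)) x =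
      pd p (pd b V) x * (t x a b * Q x) + pd b V x * (pd p (fun y => t y a b) x * Q x
        + t x a b * pd p Q x) := fun b p => by
    rw [Vale.Agent.P227.M.rpd_mul (hVx b) ((hgx a b).fun_mul hQx),
      Vale.Agent.P227.M.rpd_mul (hgx a b) hQx]
  have e3 : ∀ p, pd p (fun y : E n => y a * Q y) x = (if a = p then 1 else 0) * Q x
      + x a * pd p Q x := fun p => by
    rw [Vale.Agent.P227.M.rpd_mul hxa hQx, rpd_coord]
  have hdi : ∑ e, (pd e (fun y => t y i e) x - t x i e * pd e V x) = - x i := hdx i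
  have hda : ∑ b, (pd b (fun y => t y a b) x - t x a b * pd b V x) = - x a := hdx a
  -- the corrector at `x`
  have c1 : Dt t i (fun y => y a * Q y) x = t x i a * Q x + x a * Dt t i Q x := by
    unfold Dt
    simp only [e3, mul_add, Finset.sum_add_distrib, Finset.mul_sum]
    congr 1
    · rw [Finset.sum_eq_single a]
      · simp
      · intro b _ hb
        rw [if_neg (Ne.symm hb)]; ring
      · intro hb
        exact absurd (Finset.mem_univ a) hb
    · exact Finset.sum_congr rfl fun b _ => by ring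
  -- the term with the index `b`
  have c2 : ∀ b, (Dt t i (fun y => pd b V y * (t y a b * Q y)) x
      - x i * (pd b V x * (t x a b * Q x))) + ∑ e, (pd e (fun y => t y a b) x *
      (pd b (fun y => t y i e * Q y) x
      - pd b V x * (t x i e * Q x)) - pd b (fun y => t y a b) x * (pd e (fun y => t y i e * Q y) x
      - pd e V x * (t x i e * Q x)))
      = (∑ e, t x i e * pd e (pd b V) x * t x a b) * Q x
        + Dt t i (fun y => t y a b) x * pd b Q x
        + (∑ e, pd b (fun y => t y i e) x * pd e (fun y => t y a b) x) * Q x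
        + (x i * Q x - Dt t i Q x) * (pd b (fun y => t y a b) x - t x a b * pd b V x) := by
    intro b
    have f1 : Dt t i (fun y => pd b V y * (t y a b * Q y)) x =
        (∑ e, t x i e * pd e (pd b V) x * t x a b) * Q x
        + pd b V x * (Dt t i (fun y => t y a b) x * Q x + t x a b * Dt t i Q x) := by
      unfold Dt
      simp only [e2, Finset.mul_sum, Finset.sum_mul, ← Finset.sum_add_distrib]
      exact Finset.sum_congr rfl fun e _ => by ring
    have f2 : ∑ e, (pd e (fun y => t y a b) x *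
      (pd b (fun y => t y i e * Q y) x
      - pd b V x * (t x i e * Q x)) - pd b (fun y => t y a b) x * (pd e (fun y => t y i e * Q y) x
      - pd e V x * (t x i e * Q x)))
      = (∑ e, pd b (fun y => t y i e) x * pd e (fun y => t y a b) x) * Q x
        + Dt t i (fun y => t y a b) x * pd b Q x
        - pd b V x * Q x * Dt t i (fun y => t y a b) x
        - pd b (fun y => t y a b) x * Dt t i Q x
        - pd b (fun y => t y a b) x * Q x * (∑ e, (pd e (fun y => t y i e) x - t x i e * pd e V x)) := by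
      unfold Dt
      simp only [e1, Finset.mul_sum, Finset.sum_mul, ← Finset.sum_add_distrib,
        ← Finset.sum_sub_distrib]
      exact Finset.sum_congr rfl fun e _ => by ring
    rw [f1, f2, hdi]
    ring
  rw [Finset.sum_congr rfl fun b _ => c2 b]
  simp only [Finset.sum_add_distrib, ← Finset.sum_mul, ← Finset.mul_sum]
  rw [hda, c1]
  have c3 : ∀ b, Dt t b (fun y => t y i a) x = Dt t i (fun y => t y a b) x := by
    intro b
    have s1 : (fun y => t y a b) = fun y => t y b a := funext fun y => h.symm y a b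
    rw [s1]
    exact (htx i b a).symm
  simp only [c3]
  ring

end

end Vale.Agent.P254.SN
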